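import Vale.Agent.P134H.Seg

/-!
# P134H: the equation of Riccati along a line
-/

open Metric Filter Topology Set
open scoped ContDiff RealInnerProductSpace
open Vale.Agent.P366.Stmt (E)

noncomputable section

namespace Vale.Agent.P134H

open Vale.Agent.P134B Vale.Agent.P134B.Seg

variable {n : ℕ} {C : ℝ} {u : E n → ℝ}

/-- the phase turns in logarithmic time -/
theorem ric1 {ψ s d : ℝ → ℝ} {δ q₀ L : ℝ} (dψ : ∀ t, HasDerivAt ψ (s t) t)
    (ds : ∀ t, HasDerivAt s (d t) t) (q0 : 0 < q₀) (hq : q₀ ≤ 1 - s 0 ^ 2) (hδ : 8 * δ < q₀)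
    (L0 : 0 ≤ L) (hd : ∀ t ∈ Icc 0 L, d t ≤ -(1 - s t ^ 2) + 2 * δ) :
    ψ L ≤ ψ 0 - L / 2 + 3 / 2 * Real.log (3 / q₀) := by
  have q1 : q₀ ≤ 1 := by nlinarith [sq_nonneg (s 0)]
  set κ := 3 / q₀ - 1 with hκ
  have κ2 : 2 ≤ κ := by
    have : 3 ≤ 3 / q₀ := by rw [le_div_iff₀ q0]; linarith
    linarith
  have pos : ∀ t, 0 < Real.exp t + κ := fun t => by linarith [Real.exp_pos t]
  set B : ℝ → ℝ := fun t => 3 / 2 * (Real.exp t / (Real.exp t + κ)) with hB
  have dB : ∀ t, HasDerivAt B (B t * (1 - 2 / 3 * B t)) t := fun t =>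
    (((Real.hasDerivAt_exp t).fun_div ((Real.hasDerivAt_exp t).add_const κ)
      (pos t).ne').const_mul (3 / 2)).congr_deriv (by
        have := (pos t).ne'
        simp only [hB]
        field_simp)
  have B0 : B 0 = q₀ / 2 := by
    simp only [hB, hκ, Real.exp_zero]; field_simp; ring
  have Blo : ∀ t, 0 ≤ t → q₀ / 2 ≤ B t := fun t t0 => by
    have a := Real.one_le_exp t0
    have b : q₀ * (κ + 1) = 3 := by rw [hκ]; field_simp; ring
    simp only [hB]
    rw [← mul_div_assoc, le_div_iff₀ (pos t)]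
    nlinarith
  have Bhi : ∀ t, B t ≤ 3 / 2 := fun t => by
    have : Real.exp t / (Real.exp t + κ) ≤ 1 := by rw [div_le_one (pos t)]; linarith
    simp only [hB]; linarith
  have key : ∀ t ∈ Icc 0 L, s t ≤ 1 - B t :=
    image_le_of_deriv_right_lt_deriv_boundary (f' := d) (B' := fun t => -(B t * (1 - 2 / 3 * B t)))
      (fun t _ => (ds t).continuousAt.continuousWithinAt) (fun t _ => (ds t).hasDerivWithinAt)
      (by rw [B0]; nlinarith [sq_nonneg (s 0 - 1)]) (fun t => (dB t).const_sub 1) fun t ht' e => by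
        have a := hd t (Ico_subset_Icc_self ht')
        have b := Blo t ht'.1
        have c := Bhi t
        rw [e] at a
        nlinarith
  have dΦ : ∀ t, HasDerivAt (fun t => ψ t - t + 3 / 2 * Real.log (Real.exp t + κ))
      (s t - 1 + B t) t := fun t =>
    ((dψ t).fun_sub (hasDerivAt_id' t)).fun_add
      ((((Real.hasDerivAt_exp t).add_const κ).log (pos t).ne').const_mul (3 / 2))
  have m := image_le_of_deriv_right_le_deriv_boundary (a := 0) (b := L) (B' := fun _ => 0)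
    (fun t _ => (dΦ t).continuousAt.continuousWithinAt) (fun t _ => (dΦ t).hasDerivWithinAt)
    (B := fun _ => ψ 0 - 0 + 3 / 2 * Real.log (Real.exp 0 + κ)) le_rfl continuousOn_const
    (fun t _ => (hasDerivAt_const t _).hasDerivWithinAt)
    (fun t ht' => by linarith [key t (Ico_subset_Icc_self ht')]) ⟨L0, le_rfl⟩
  have l1 : L ≤ Real.log (Real.exp L + κ) :=
    (Real.le_log_iff_exp_le (pos L)).2 (by linarith)
  have l2 : Real.exp 0 + κ = 3 / q₀ := by rw [Real.exp_zero, hκ]; ring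
  simp only [l2] at m
  linarith

theorem u_ge (h : Ok C u) {x : E n} (hx : 2 ≤ ps u x) : 3 / 4 ≤ u x := by
  have s1 : 7 / 5 ≤ √2 := Real.le_sqrt_of_sq_le (by norm_num)
  have u0 : 0 < u x := by
    rw [h.th, Real.tanh_eq_sinh_div_cosh]
    exact div_pos (Real.sinh_pos_iff.2 (by positivity)) (Real.cosh_pos _)
  have a := h.fhi x
  have b : Real.exp (-(√2 * |ps u x|)) ≤ 1 / 10 := by
    rw [Real.exp_neg, inv_le_comm₀ (Real.exp_pos _) (by norm_num)]
    have c : 14 / 5 ≤ √2 * |ps u x| := by nlinarith [le_abs_self (ps u x)]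
    have e := Real.quadratic_le_exp_of_nonneg (x := 7 / 5) (by norm_num)
    calc (1 / 10 : ℝ)⁻¹ ≤ Real.exp (7 / 5) * Real.exp (7 / 5) := by nlinarith
      _ ≤ _ := by rw [← Real.exp_add]; exact Real.exp_le_exp.2 (by linarith)
  have s2 : √2 * √2 = 2 := Real.mul_self_sqrt (by norm_num)
  rw [ff, div_le_iff₀ (by positivity)] at a
  have c : 1 - u x ^ 2 ≤ 4 / 10 := by nlinarith
  nlinarith

theorem u_le (h : Ok C u) {x : E n} (hx : ps u x ≤ -2) : u x ≤ -(3 / 4) := by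
  have := u_ge (Sy.ok h) (x := x) (by rw [Sy.ps_neg, Pi.neg_apply]; linarith)
  rw [Pi.neg_apply] at this
  linarith

/-- the decomposition of the gradient -/
theorem pyth {e : E n} (he : ‖e‖ = 1) (x : E n) :
    qq u x = 1 - pe u e x ^ 2 - ‖pp u x - pe u e x • e‖ ^ 2 := by
  rw [norm_sub_sq_real, real_inner_smul_right, norm_smul, he, Real.norm_eq_abs, mul_one, sq_abs,
    qq, pe]
  ring

theorem zn0 {δ : ℝ} {e x : E n} (h : Zn δ u e x) : 0 ≤ δ := (norm_nonneg _).trans h.t0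

theorem one_le_log {q₀ : ℝ} (q0 : 0 < q₀) (q1 : q₀ ≤ 1) : 1 ≤ Real.log (3 / q₀) := by
  rw [Real.le_log_iff_exp_le (by positivity), le_div_iff₀ q0]
  nlinarith [Real.exp_one_lt_d9, Real.exp_pos 1]

theorem ric0 (h : Ok C u) {e x : E n} {δ q₀ : ℝ} (he : ‖e‖ = 1) (q0 : 0 < q₀) (hq : q₀ ≤ qq u x)
    (hδ : 8 * δ < q₀) (hx : 6 * Real.log (3 / q₀) + 2 ≤ ps u x) (s0 : 0 ≤ pe u e x)
    (hz : ∀ y ∈ closedBall x (6 * Real.log (3 / q₀)), Zn δ u e y) :
    ∃ w : E n, ‖w‖ = 6 * Real.log (3 / q₀) ∧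
      1 / (12 * Real.log (3 / q₀)) * ‖w‖ ^ 2 / 2 ≤ -ht u x (x + w) := by
  have q1 := hq.trans (P134T.qq_le u x)
  have T1 := one_le_log q0 q1
  set T := Real.log (3 / q₀) with hT
  have s1 : 7 / 5 ≤ √2 := Real.le_sqrt_of_sq_le (by norm_num)
  have nm : ∀ t : ℝ, 0 ≤ t → ‖t • e‖ = t := fun t t0 => by
    rw [norm_smul, he, mul_one, Real.norm_eq_abs, abs_of_nonneg t0]
  have k := ric1 (δ := δ) (L := 6 * T) (dps h x e) (dpe h x e e) q0 (by
    have := pyth (u := u) he x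
    simp only [zero_smul, add_zero]
    nlinarith [sq_nonneg ‖pp u x - pe u e x • e‖]) hδ (by linarith) fun t ht' => by
      have z := hz (x + t • e) (by
        rw [mem_closedBall, dist_eq_norm, add_sub_cancel_left, nm t ht'.1]; exact ht'.2)
      have a := (neg_le_abs _).trans (h.tlip x (x + t • e))
      rw [add_sub_cancel_left, nm t ht'.1] at a
      have b := u_ge h (x := x + t • e) (by linarith [ht'.2])
      have c := (le_abs_self _).trans z.t2
      have p := pyth (u := u) he (x + t • e)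
      have p2 : ‖pp u (x + t • e) - pe u e (x + t • e) • e‖ ^ 2 ≤ δ ^ 2 :=
        pow_le_pow_left₀ (norm_nonneg _) z.t0 2
      have d0 := zn0 z
      have g : qq u (x + t • e) ≤ √2 * u (x + t • e) * qq u (x + t • e) :=
        le_mul_of_one_le_left (h.q0 _) (by nlinarith)
      nlinarith
  simp only [zero_smul, add_zero] at k
  refine ⟨(6 * T) • e, nm _ (by linarith), ?_⟩
  have e1 : 1 / (12 * T) * (6 * T) ^ 2 / 2 = 3 / 2 * T := by field_simp; ring
  have e2 : 0 ≤ 6 * T * pe u e x := by positivity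
  rw [nm _ (by linarith), e1, ht, add_sub_cancel_left, real_inner_smul_right]
  unfold pe at e2
  linarith

/-- **RIC**: where `qq` is not small the phase turns at a logarithmic distance -/
theorem ric (h : Ok C u) {e x : E n} {δ q₀ : ℝ} (he : ‖e‖ = 1) (q0 : 0 < q₀) (hq : q₀ ≤ qq u x)
    (hδ : 8 * δ < q₀) (hx : 6 * Real.log (3 / q₀) + 2 ≤ ps u x)
    (hz : ∀ y ∈ closedBall x (6 * Real.log (3 / q₀)), Zn δ u e y) :
    ∃ w : E n, ‖w‖ = 6 * Real.log (3 / q₀) ∧
      1 / (12 * Real.log (3 / q₀)) * ‖w‖ ^ 2 / 2 ≤ -ht u x (x + w) := by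
  rcases le_total 0 (pe u e x) with k | k
  · exact ric0 h he q0 hq hδ hx k hz
  · exact ric0 h (e := -e) (by rw [norm_neg, he]) q0 hq hδ hx (by simpa [pe] using k)
      fun y hy => ((sym.1 n u).2.2.2 δ e y (hz y hy)).2

theorem ht_neg (u : E n → ℝ) (x y : E n) : ht (-u) x y = -ht u x y := by
  simp only [ht, Sy.ps_neg, Sy.pp_neg, Pi.neg_apply, inner_neg_left]
  ring

/-- **RIC** on the negative side -/
theorem ric' (h : Ok C u) {e x : E n} {δ q₀ : ℝ} (he : ‖e‖ = 1) (q0 : 0 < q₀) (hq : q₀ ≤ qq u x)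
    (hδ : 8 * δ < q₀) (hx : 6 * Real.log (3 / q₀) + 2 ≤ -ps u x)
    (hz : ∀ y ∈ closedBall x (6 * Real.log (3 / q₀)), Zn δ u e y) :
    ∃ w : E n, ‖w‖ = 6 * Real.log (3 / q₀) ∧
      1 / (12 * Real.log (3 / q₀)) * ‖w‖ ^ 2 / 2 ≤ ht u x (x + w) := by
  simpa only [ht_neg, neg_neg] using ric (Sy.ok h) he q0 (by rwa [Sy.qq_neg]) hδ
    (by rwa [Sy.ps_neg]) fun y hy => ((sym.1 n u).2.2.2 δ e y (hz y hy)).1

end Vale.Agent.P134H
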