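import Vale.Agent.P134H.Ric
import Vale.Agent.P134B.TL
import Vale.Agent.P134B.TL0
import Vale.Agent.P134B.FOOT
import Vale.Agent.P134B.PAR
import Vale.Agent.P134B.BAR
import Vale.Agent.P134B.MAX
import Vale.Agent.P134C.Defs

/-!
# P134H: far from the bad set the solution is one-dimensional up to an exponentially small error
-/

open Metric Filter Topology Set
open scoped ContDiff RealInnerProductSpace
open Vale.Agent.P366.Stmt (E)

noncomputable section

namespace Vale.Agent.P134H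

open Vale.Agent.P134B Vale.Agent.P134B.TLa Vale.Agent.P134C

variable {n : ℕ} {C : ℝ} {u : E n → ℝ}

theorem zn_mono {δ δ' : ℝ} {e x : E n} (h : Zn δ u e x) (k : δ ≤ δ') : Zn δ' u e x :=
  ⟨h.t0.trans k, fun τ hτ => (h.t1 τ hτ).trans (mul_le_mul_of_nonneg_right k (norm_nonneg _)),
    h.t2.trans k, h.t3.imp (·.trans k) fun a => by linarith⟩

/-- exponentials beat polynomials -/
theorem ev (A : ℝ) (k : ℕ) {c : ℝ} (c0 : 0 < c) :
    ∀ᶠ t in atTop, A * t ^ k ≤ Real.exp (c * t) := by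
  have a := (isLittleO_pow_exp_pos_mul_atTop k c0).def (c := (|A| + 1)⁻¹) (by positivity)
  filter_upwards [a, eventually_ge_atTop 0] with t h t0
  rw [Real.norm_eq_abs, Real.norm_eq_abs, abs_of_nonneg (pow_nonneg t0 k),
    abs_of_pos (Real.exp_pos _), inv_mul_eq_div, le_div_iff₀ (by positivity)] at h
  nlinarith [le_abs_self A, pow_nonneg t0 k]

/-- the tilt estimate with the error `K ε ^ (1 / 4)` -/
theorem tls (m : ℕ) (C M : ℝ) : ∃ K > (0 : ℝ), ∃ ε₀ > (0 : ℝ), ∀ (u : E (m + 1) → ℝ) (ε : ℝ)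
    (z : E (m + 1)), Ok C u → 0 < ε → ε ≤ ε₀ → Gd u ε z (1 / ε) → u z = 0 → M * lg ε ≤ 1 / ε →
    ‖nu u z‖ = 1 ∧ ∀ x ∈ ball z (M * lg ε), Zn (K * √(√ε)) u (nu u z) x := by
  obtain ⟨K, K0, hK⟩ := ge (n := m + 1) (by omega)
  obtain ⟨ε₁, e1, h1⟩ := tl0 (foot seg) (par seg) bar max' (m + 1) C (M + 1)
  refine ⟨((m + 1 : ℕ) : ℝ) * K + K + 2, by positivity, min ε₁ (1 / 3), by positivity,
    fun u ε z h ε0 hε hG hz hM => ?_⟩
  have e3 := hε.trans (min_le_right _ _)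
  have l1 := lg_ge ε0 e3
  have p0 : pp u z ≠ 0 := fun k => by
    have := hG z (mem_ball_self (by positivity))
    rw [EE, ff, qq, k, hz, div_pow, Real.sq_sqrt (by norm_num)] at this
    norm_num at this
    nlinarith
  have pn : ‖pp u z‖ ≠ 0 := norm_ne_zero_iff.2 p0
  have he : ‖nu u z‖ = 1 := by rw [nu, norm_smul, norm_inv, norm_norm, inv_mul_cancel₀ pn]
  refine ⟨he, fun x hx => ?_⟩
  have k0 : ∀ τ, ⟪τ, nu u z⟫ = 0 → ∀ y ∈ closedBall x 1,
      |pe u τ y| ≤ √(√ε) * ‖τ‖ := fun τ hτ y hy => by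
    rw [nu, real_inner_smul_right, mul_eq_zero, or_iff_right (inv_ne_zero pn)] at hτ
    by_cases t0 : τ = 0
    · simp [t0, pe]
    have tn : 0 < ‖τ‖ := norm_pos_iff.2 t0
    have := h1 u ε z (‖τ‖⁻¹ • τ) h ε0 (hε.trans (min_le_left _ _)) hG hz
      (by rw [real_inner_smul_left, hτ, mul_zero])
      (by rw [norm_smul, norm_inv, norm_norm, inv_mul_cancel₀ tn.ne']) y (by
        rw [mem_ball] at hx ⊢
        linarith [dist_triangle y x z, mem_closedBall.1 hy])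
    rw [pe, real_inner_smul_right, abs_mul, abs_of_pos (inv_pos.2 tn), inv_mul_le_iff₀ tn,
      mul_comm] at this
    exact this
  refine zn h he K0 (η := √(√ε)) (ε := ε) (by positivity)
    (Real.sqrt_le_one.2 (Real.sqrt_le_one.2 (by linarith))) ?_ le_rfl
    (hG x (ball_subset_ball hM hx)) (fun τ hτ => k0 τ hτ x (mem_closedBall_self zero_le_one))
    fun τ hτ => hK C u τ x _ h (by positivity) (k0 τ hτ)
  rw [show √(√ε) ^ 4 = (√(√ε) ^ 2) ^ 2 by ring, Real.sq_sqrt (Real.sqrt_nonneg _),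
    Real.sq_sqrt ε0.le]

theorem dd_le (δ : ℝ) (u : E n → ℝ) (x y : E n) : dd δ u x ≤ dd δ u y + ‖x - y‖ := by
  rw [← dist_eq_norm]
  exact infDist_le_infDist_add_dist

/-- **FLAT** -/
theorem flat (m : ℕ) (C P A : ℝ) (P0 : 0 < P) (A0 : 0 ≤ A) : ∃ c > (0 : ℝ), ∃ t₀ : ℝ,
    ∀ (δ : ℝ) (u : E (m + 1) → ℝ) (x : E (m + 1)) (T : ℝ), Rt C δ u → t₀ ≤ T → |ps u x| ≤ T →
    T ≤ P * Real.log (1 + dd δ u x) → ∃ e : E (m + 1), ‖e‖ = 1 ∧
      ∀ y ∈ closedBall x (A * T), Zn (Real.exp (-(c * T))) u e y ∧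
        EE u y ≤ Real.exp (-(c * T)) := by
  obtain ⟨K, K0, ε₀, e0, H⟩ := tls m C (2 * P * (A + 3))
  obtain ⟨t₀, ht₀⟩ := eventually_atTop.1 <| ((ev (2 * |C|) 0 (c := 1 / 2) (by norm_num)).and
    (ev (A + 3) 1 (c := 1 / (2 * P)) (by positivity))).and
    (((ev (1 / ε₀) 0 (c := 1 / (2 * P)) (by positivity)).and
    (ev (4 * |C| + 1) 0 (c := 1 / (2 * P)) (by positivity))).and
    ((ev K 0 (c := 1 / (16 * P)) (by positivity)).and (eventually_ge_atTop 1)))
  refine ⟨1 / (16 * P), by positivity, t₀, fun δ u x T h hT hx hd => ?_⟩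
  obtain ⟨⟨a1, a2⟩, ⟨a3, a4⟩, a5, T1⟩ := ht₀ T hT
  simp only [pow_zero, mul_one, pow_one] at a1 a2 a3 a4 a5
  have C1 := h.ok.C1
  rw [abs_of_nonneg (by linarith)] at a1 a4
  set X := Real.exp (1 / (2 * P) * T) with hX
  have X0 : 0 < X := Real.exp_pos _
  have hXd : X * X ≤ 1 + dd δ u x := by
    have d0 : 0 ≤ dd δ u x := infDist_nonneg
    rw [hX, ← Real.exp_add, ← Real.le_log_iff_exp_le (by linarith)]
    have : 1 / (2 * P) * T + 1 / (2 * P) * T = T / P := by field_simp; ring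
    rw [this, div_le_iff₀ P0]
    linarith
  have lX : lg X⁻¹ = 1 / (2 * P) * T := by rw [lg, Real.log_inv, neg_neg, hX, Real.log_exp]
  have e2 : 2 * P * (A + 3) * lg X⁻¹ = (A + 3) * T := by rw [lX]; field_simp
  have hG : Gd u X⁻¹ x (2 * X) := fun y hy => by
    have b1 := dd_le δ u x y
    rw [mem_ball, dist_comm, dist_eq_norm] at hy
    have b2 : C * X ≤ dd δ u y := by nlinarith
    have b3 := h.rt y
    have b4 := mul_le_mul_of_nonneg_left (pow_le_pow_left₀ (by positivity) b2 2) (h.ok.tEE_nn y)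
    rw [inv_pow, ← one_div, le_div_iff₀ (by positivity)]
    have b5 : 0 ≤ EE u y * X ^ 2 := mul_nonneg (h.ok.tEE_nn y) (by positivity)
    have b6 : C * (C * (EE u y * X ^ 2)) ≤ C * 1 := by linarith
    have b7 := le_of_mul_le_mul_left b6 (by linarith)
    nlinarith
  obtain ⟨z, hz, z0⟩ := h.ok.tnear (x := x) (R := 2 * T) (by linarith) (by
    refine lt_of_lt_of_le ?_ (h.ok.flo x)
    have s2 : √2 < 3 / 2 := Real.sqrt_lt' (by norm_num) |>.2 (by norm_num)
    have s0 : 0 < √2 := by positivity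
    have b1 : Real.exp (-(3 / 2 * T)) ≤ Real.exp (-(√2 * |ps u x|)) :=
      Real.exp_le_exp.2 (by nlinarith [abs_nonneg (ps u x)])
    have b2 : Real.exp (1 / 2 * T) * Real.exp (-(2 * T)) = Real.exp (-(3 / 2 * T)) := by
      rw [← Real.exp_add]; congr 1; ring
    have b3 := Real.exp_pos (-(2 * T))
    rw [lt_div_iff₀ s0]
    nlinarith [mul_pos (mul_pos (show 0 < C by linarith) b3) (show 0 < 2 - √2 by linarith)])
  have TX : (A + 3) * T ≤ X := a2
  obtain ⟨he, hZ⟩ := H u X⁻¹ z h.ok (by positivity) (by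
    rw [inv_le_comm₀ X0 e0]; simpa using a3) (fun y hy => hG y (by
      rw [mem_ball, dist_eq_norm] at hy ⊢
      rw [one_div, inv_inv] at hy
      have : ‖y - x‖ ≤ ‖y - z‖ + ‖z - x‖ := norm_sub_le_norm_sub_add_norm_sub _ _ _
      nlinarith)) z0 (by rw [e2, one_div, inv_inv]; exact TX)
  refine ⟨_, he, fun y hy => ?_⟩
  rw [mem_closedBall, dist_eq_norm] at hy
  have s4 : √(√X⁻¹) = Real.exp (-(1 / (8 * P) * T)) := by
    rw [hX, ← Real.exp_neg, ← Real.exp_half, ← Real.exp_half]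
    congr 1; field_simp; ring
  refine ⟨zn_mono (hZ y ?_) ?_, (hG y ?_).trans ?_⟩
  · rw [mem_ball, dist_eq_norm, e2]
    have : ‖y - z‖ ≤ ‖y - x‖ + ‖x - z‖ := norm_sub_le_norm_sub_add_norm_sub _ _ _
    rw [norm_sub_rev x z] at this
    linarith
  · rw [s4]
    refine (mul_le_mul_of_nonneg_right a5 (Real.exp_pos _).le).trans (le_of_eq ?_)
    rw [← Real.exp_add]; congr 1; field_simp; ring
  · rw [mem_ball, dist_eq_norm]
    linarith
  · rw [hX, ← Real.exp_neg, ← Real.exp_nat_mul]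
    refine Real.exp_le_exp.2 ?_
    have : 0 < 1 / (16 * P) * T := by positivity
    have e : (2 : ℕ) * -(1 / (2 * P) * T) = -(16 * (1 / (16 * P) * T)) := by
      push_cast; field_simp
    rw [e]; linarith

end Vale.Agent.P134H
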