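import Vale.Agent.P134H.Ric

/-!
# P134H: one step down along the normal
-/

open Metric Filter Topology Set
open scoped ContDiff RealInnerProductSpace
open Vale.Agent.P366.Stmt (E)

noncomputable section

namespace Vale.Agent.P134H

open Vale.Agent.P134B Vale.Agent.P134B.Seg

variable {n : ℕ} {C : ℝ} {u : E n → ℝ}

theorem hs_le (A : E n →L[ℝ] E n) : hs A ≤ n * ‖A‖ ^ 2 := by
  have : ∀ i : Fin n, ‖A (EuclideanSpace.single i 1)‖ ^ 2 ≤ ‖A‖ ^ 2 := fun i =>
    pow_le_pow_left₀ (norm_nonneg _) (A.unit_le_opNorm _ (by simp)) 2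
  simpa [hs] using Finset.sum_le_sum fun i (_ : i ∈ Finset.univ) => this i

theorem hs_nn (A : E n →L[ℝ] E n) : 0 ≤ hs A := Finset.sum_nonneg fun _ _ => sq_nonneg _

/-- comparison of the weights at two points -/
theorem ff_cmp (h : Ok C u) {x y : E n} {a : ℝ} (k : |ps u y| + a ≤ |ps u x|) :
    ff u x ≤ 4 * Real.exp (-(√2 * a)) * ff u y := by
  have s2 : √2 * √2 = 2 := Real.mul_self_sqrt (by norm_num)
  have s0 : 0 < √2 := by positivity
  have a1 := h.flo y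
  rw [div_le_iff₀ s0] at a1
  have a2 : Real.exp (-(√2 * |ps u x|)) ≤ Real.exp (-(√2 * a)) * Real.exp (-(√2 * |ps u y|)) := by
    rw [← Real.exp_add]
    exact Real.exp_le_exp.2 (by nlinarith)
  calc ff u x ≤ 2 * √2 * (Real.exp (-(√2 * a)) * (ff u y * √2)) :=
        (h.fhi x).trans (mul_le_mul_of_nonneg_left
          (a2.trans (mul_le_mul_of_nonneg_left a1 (Real.exp_pos _).le)) (by positivity))
    _ = 2 * (√2 * √2) * Real.exp (-(√2 * a)) * ff u y := by ring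
    _ = _ := by rw [s2]; ring

theorem dSS (h : Ok C u) (x v : E n) (t : ℝ) :
    HasDerivAt (fun t : ℝ => SS u (x + t • v)) (fderiv ℝ (SS u) (x + t • v) v) t :=
  ((h.tcp.fderiv_right (m := 1) (by norm_cast)).differentiable (by simp)
    _).hasFDerivAt.comp_hasDerivAt t (line x v t)

/-- the derivative of the Hessian in the normal direction -/
theorem dS_le (h : Ok C u) {δ : ℝ} {e y : E n} (z : Zn δ u e y) (s : 1 / 2 ≤ |pe u e y|) :
    ‖fderiv ℝ (SS u) y e‖ ≤ 2 * C * (qq u y + δ * √(qq u y)) := by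
  have a : pe u e y • fderiv ℝ (SS u) y e =
      fderiv ℝ (SS u) y (pp u y) - fderiv ℝ (SS u) y (pp u y - pe u e y • e) := by
    rw [map_sub, map_smul]; abel
  have b := (norm_sub_le _ _).trans (add_le_add (h.S2 y)
    ((fderiv ℝ (SS u) y).le_of_opNorm_le_of_le (h.S1 y) z.t0))
  rw [← a, norm_smul, Real.norm_eq_abs] at b
  nlinarith [norm_nonneg (fderiv ℝ (SS u) y e)]

theorem step0 (h : Ok C u) {e x : E n} {δ q₁ a B : ℝ} (he : ‖e‖ = 1) (a0 : 0 ≤ a)
    (ha : a ≤ ps u x) (hq : q₁ + δ ^ 2 ≤ 1 / 2) (s0 : pe u e x ≤ 0)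
    (hz : ∀ t ∈ Icc 0 a, Zn δ u e (x + t • e) ∧ qq u (x + t • e) ≤ q₁ ∧ EE u (x + t • e) ≤ B) :
    ff u x ^ 2 * ‖SS u x‖ ^ 2 ≤
      (32 * C ^ 2 * Real.exp (-a) + 256 * C ^ 2 * a ^ 2 * (q₁ + δ ^ 2)) * B := by
  have C1 := h.C1
  have sq : ∀ t ∈ Icc 0 a, 1 / 2 ≤ pe u e (x + t • e) ^ 2 := fun t ht' => by
    obtain ⟨z, q, -⟩ := hz t ht'
    have := pyth (u := u) he (x + t • e)
    have := pow_le_pow_left₀ (norm_nonneg _) z.t0 2
    linarith
  have sl : ∀ t ∈ Icc 0 a, pe u e (x + t • e) ≤ -(1 / 2) := fun t ht' => by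
    have k : pe u e (x + t • e) ≤ 0 := by
      by_contra k
      obtain ⟨s, hs, s1⟩ := intermediate_value_Icc ht'.1 (f := fun t : ℝ => pe u e (x + t • e))
        (fun t _ => (dpe h x e e t).continuousAt.continuousWithinAt)
        (⟨by simpa using s0, (not_le.1 k).le⟩ : (0 : ℝ) ∈ Icc _ _)
      have := sq s ⟨hs.1, hs.2.trans ht'.2⟩
      simp only at s1
      rw [s1] at this
      norm_num at this
    nlinarith [sq t ht']
  have dn : ∀ t ∈ Icc 0 a, |ps u (x + t • e)| + t / 2 ≤ |ps u x| := fun t ht' => by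
    have m := image_le_of_deriv_right_le_deriv_boundary (a := 0) (b := a) (B' := fun _ => -(1 / 2))
      (fun t _ => (dps h x e t).continuousAt.continuousWithinAt)
      (fun t _ => (dps h x e t).hasDerivWithinAt) (B := fun t => ps u x - t / 2) (by simp)
      (by fun_prop) (fun t _ => (((hasDerivAt_id' t).div_const 2).const_sub _).hasDerivWithinAt)
      (fun t ht' => sl t (Ico_subset_Icc_self ht')) ht'
    have b := (neg_le_abs _).trans (h.tlip x (x + t • e))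
    rw [add_sub_cancel_left, norm_smul, he, mul_one, Real.norm_eq_abs, abs_of_nonneg ht'.1] at b
    rw [abs_of_nonneg (by linarith [ht'.2]), abs_of_nonneg (by linarith)]
    linarith
  have f0 := h.tff_pos x
  obtain ⟨z0, q0, B0⟩ := hz 0 ⟨le_rfl, a0⟩
  have q1 := (h.q0 _).trans q0
  have B1 := (h.tEE_nn _).trans B0
  have d0 := zn0 z0
  have fq : ∀ t ∈ Icc 0 a, ff u x * √(qq u (x + t • e)) ≤ 4 * Real.exp (-(√2 * (t / 2))) * √B :=
    fun t ht' => by
      have b : ff u (x + t • e) * √(qq u (x + t • e)) ≤ √B := by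
        refine Real.le_sqrt_of_sq_le ?_
        rw [mul_pow, Real.sq_sqrt (h.q0 _)]
        exact (hz t ht').2.2
      refine (mul_le_mul_of_nonneg_right (ff_cmp h (dn t ht')) (Real.sqrt_nonneg _)).trans ?_
      rw [mul_assoc]
      exact mul_le_mul_of_nonneg_left b (by positivity)
  have mv := norm_image_sub_le_of_norm_deriv_le_segment' (a := 0) (b := a)
    (C := 8 * C * (√q₁ + δ) * √B)
    (fun t _ => ((dSS h x e t).const_smul (ff u x)).hasDerivWithinAt) (fun t ht' => by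
      have t1 := Ico_subset_Icc_self ht'
      have b1 := dS_le h (hz t t1).1 (by linarith [sl t t1, neg_le_abs (pe u e (x + t • e))])
      have b2 := fq t t1
      have b3 : Real.exp (-(√2 * (t / 2))) ≤ 1 := Real.exp_le_one_iff.2 (by
        have := t1.1; simp only [Left.neg_nonpos_iff]; positivity)
      have b4 : ff u x * √(qq u (x + t • e)) ≤ 4 * √B := by nlinarith [Real.sqrt_nonneg B]
      have b5 : √(qq u (x + t • e)) ≤ √q₁ := Real.sqrt_le_sqrt (hz t t1).2.1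
      have b6 := Real.mul_self_sqrt (h.q0 (x + t • e))
      rw [norm_smul, Real.norm_eq_abs, abs_of_pos f0]
      calc _ ≤ ff u x * (2 * C * (qq u (x + t • e) + δ * √(qq u (x + t • e)))) := by gcongr
        _ = 2 * C * ((√(qq u (x + t • e)) + δ) * (ff u x * √(qq u (x + t • e)))) := by
          linear_combination (-(2 * C * ff u x)) * b6
        _ ≤ 2 * C * ((√q₁ + δ) * (4 * √B)) := by gcongr
        _ = _ := by ring) a ⟨a0, le_rfl⟩
  simp only [Pi.smul_apply, zero_smul, add_zero, sub_zero] at mv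
  have c1 : ‖ff u x • SS u (x + a • e)‖ ≤ 4 * C * Real.exp (-(√2 * (a / 2))) * √B := by
    rw [norm_smul, Real.norm_eq_abs, abs_of_pos f0]
    calc _ ≤ ff u x * (C * √(qq u (x + a • e))) := by gcongr; exact h.S0 _
      _ = C * (ff u x * √(qq u (x + a • e))) := by ring
      _ ≤ C * (4 * Real.exp (-(√2 * (a / 2))) * √B) :=
        mul_le_mul_of_nonneg_left (fq a ⟨a0, le_rfl⟩) (by linarith)
      _ = _ := by ring
  have c2 : ff u x * ‖SS u x‖ ≤ 4 * C * Real.exp (-(√2 * (a / 2))) * √B +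
      8 * C * (√q₁ + δ) * √B * a := by
    have := norm_sub_norm_le (ff u x • SS u x) (ff u x • SS u (x + a • e))
    rw [norm_sub_rev, norm_smul, Real.norm_eq_abs, abs_of_pos f0] at this
    linarith
  have c3 : Real.exp (-(√2 * (a / 2))) ^ 2 ≤ Real.exp (-a) := by
    rw [← Real.exp_nat_mul]
    exact Real.exp_le_exp.2 (by push_cast; nlinarith [Real.one_lt_sqrt_two])
  have c4 : (√q₁ + δ) ^ 2 ≤ 2 * (q₁ + δ ^ 2) := by
    nlinarith [Real.sq_sqrt q1, sq_nonneg (√q₁ - δ)]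
  calc _ = (ff u x * ‖SS u x‖) ^ 2 := by ring
    _ ≤ (4 * C * Real.exp (-(√2 * (a / 2))) * √B + 8 * C * (√q₁ + δ) * √B * a) ^ 2 := by gcongr
    _ ≤ 2 * (4 * C * Real.exp (-(√2 * (a / 2))) * √B) ^ 2 +
        2 * (8 * C * (√q₁ + δ) * √B * a) ^ 2 := by
      nlinarith [sq_nonneg (4 * C * Real.exp (-(√2 * (a / 2))) * √B - 8 * C * (√q₁ + δ) * √B * a)]
    _ = (32 * C ^ 2 * Real.exp (-(√2 * (a / 2))) ^ 2 + 128 * C ^ 2 * a ^ 2 * (√q₁ + δ) ^ 2) *
        √B ^ 2 := by ring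
    _ ≤ (32 * C ^ 2 * Real.exp (-a) + 128 * C ^ 2 * a ^ 2 * (2 * (q₁ + δ ^ 2))) * B := by
      rw [Real.sq_sqrt B1]; gcongr
    _ = _ := by ring

/-- **STEP**: the Hessian at `x` against the energy below `x` -/
theorem step (h : Ok C u) {e x : E n} {δ q₁ a : ℝ} (he : ‖e‖ = 1) (a0 : 0 ≤ a)
    (ha : a ≤ ps u x) (hq : q₁ + δ ^ 2 ≤ 1 / 2)
    (hz : ∀ y ∈ closedBall x a, Zn δ u e y ∧ qq u y ≤ q₁) : ∃ z ∈ closedBall x a,
    EE u x ≤ EE u z ∧ ff u x ^ 2 * ‖SS u x‖ ^ 2 ≤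
      (32 * C ^ 2 * Real.exp (-a) + 256 * C ^ 2 * a ^ 2 * (q₁ + δ ^ 2)) * EE u z := by
  have cE : Continuous (EE u) := (h.tcf.continuous.pow 2).mul (smq h).continuous
  obtain ⟨z, hz1, hz2⟩ := (isCompact_closedBall x a).exists_isMaxOn ⟨x, mem_closedBall_self a0⟩
    cE.continuousOn
  have mem : ∀ v : E n, ‖v‖ = 1 → ∀ t ∈ Icc 0 a, x + t • v ∈ closedBall x a := fun v hv t ht' => by
    rw [mem_closedBall, dist_eq_norm, add_sub_cancel_left, norm_smul, hv, mul_one,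
      Real.norm_eq_abs, abs_of_nonneg ht'.1]
    exact ht'.2
  refine ⟨z, hz1, hz2 (mem_closedBall_self a0), ?_⟩
  rcases le_total (pe u e x) 0 with k | k
  · exact step0 h he a0 ha hq k fun t ht' =>
      ⟨(hz _ (mem e he t ht')).1, (hz _ (mem e he t ht')).2, hz2 (mem e he t ht')⟩
  · have he' : ‖-e‖ = 1 := by rw [norm_neg, he]
    exact step0 h he' a0 ha hq (by simpa [pe] using k) fun t ht' =>
      ⟨((sym.1 n u).2.2.2 δ e _ (hz _ (mem _ he' t ht')).1).2, (hz _ (mem _ he' t ht')).2,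
        hz2 (mem _ he' t ht')⟩

/-- a convex direction lies on the negative side -/
theorem convex_dir (h : Ok C u) {e z w : E n} {δ φ : ℝ} (he : ‖e‖ = 1) (w0 : w ≠ 0)
    (hz : Zn δ u e z) (hφ : 6 * δ < φ) (hw : φ * ‖w‖ ^ 2 ≤ ⟪SS u z w, w⟫) :
    ps u z < 0 ∧ φ / 3 ≤ qq u z := by
  have d0 := zn0 hz
  have wp : 0 < ‖w‖ := norm_pos_iff.2 w0
  have ee : ⟪e, e⟫ = (1 : ℝ) := by rw [real_inner_self_eq_norm_sq, he]; norm_num
  set a := ⟪w, e⟫ with ha
  set v := w - a • e with hv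
  have v0 : ⟪v, e⟫ = 0 := by rw [hv, inner_sub_left, real_inner_smul_left, ee]; ring
  have wv : w = v + a • e := by rw [hv]; abel
  have py : ‖w‖ ^ 2 = ‖v‖ ^ 2 + a ^ 2 := by
    conv_lhs => rw [wv]
    rw [norm_add_sq_real, real_inner_smul_right, v0, norm_smul, he, Real.norm_eq_abs, mul_one,
      sq_abs]
    ring
  have v1 : ‖v‖ ≤ ‖w‖ := by nlinarith [norm_nonneg v, sq_nonneg a]
  have a1 : |a| ≤ ‖w‖ := by nlinarith [abs_nonneg a, sq_abs a, sq_nonneg ‖v‖]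
  have sv : ‖SS u z v‖ ≤ δ * ‖w‖ := (hz.t1 v v0).trans (by gcongr)
  have ex : ⟪SS u z w, w⟫ = ⟪SS u z v, w⟫ + ⟪SS u z v, a • e⟫ + a ^ 2 * ⟪SS u z e, e⟫ := by
    have k : ⟪SS u z (a • e), w⟫ = ⟪SS u z v, a • e⟫ + a ^ 2 * ⟪SS u z e, e⟫ := by
      conv_lhs => rw [wv]
      rw [inner_add_right, h.sy z (a • e) v, real_inner_comm, map_smul, real_inner_smul_left,
        real_inner_smul_right (SS u z e)]
      ring
    conv_lhs => rw [show SS u z w = SS u z v + SS u z (a • e) by rw [← map_add, ← wv]]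
    rw [inner_add_left, k]
    ring
  have b1 : ⟪SS u z v, w⟫ ≤ δ * ‖w‖ * ‖w‖ := (real_inner_le_norm _ _).trans (by gcongr)
  have b2 : ⟪SS u z v, a • e⟫ ≤ δ * ‖w‖ * ‖w‖ := (real_inner_le_norm _ _).trans (by
    rw [norm_smul, he, mul_one, Real.norm_eq_abs]; gcongr)
  have b3 := (le_abs_self _).trans hz.t2
  have a2 : a ^ 2 ≤ ‖w‖ ^ 2 := by nlinarith [sq_nonneg ‖v‖]
  have w2 := pow_pos wp 2
  have b4 : (φ - 2 * δ) * ‖w‖ ^ 2 ≤ a ^ 2 * ⟪SS u z e, e⟫ := by nlinarith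
  have b5 : 0 < ⟪SS u z e, e⟫ := by
    by_contra k
    nlinarith [mul_nonneg (sq_nonneg a) (neg_nonneg.2 (not_lt.1 k))]
  have b6 : φ - 2 * δ ≤ ⟪SS u z e, e⟫ :=
    le_of_mul_le_mul_right (b4.trans (by nlinarith)) w2
  have q0 := h.q0 z
  have s2 : √2 ≤ 3 / 2 := Real.sqrt_le_iff.2 ⟨by norm_num, by norm_num⟩
  have s0 : 0 < √2 := by positivity
  have u1 := (abs_lt.1 (h.lt z)).1
  refine ⟨?_, ?_⟩
  · by_contra k
    have : 0 ≤ u z := by
      rw [h.th, Real.tanh_eq_sinh_div_cosh]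
      exact div_nonneg (Real.sinh_nonneg_iff.2 (div_nonneg (not_lt.1 k) s0.le)) (Real.cosh_pos _).le
    have : 0 ≤ √2 * u z * qq u z := by positivity
    linarith
  · have : -(√2 * u z) ≤ 3 / 2 := by nlinarith
    nlinarith

end Vale.Agent.P134H
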