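import Vale.Agent.P134B.SEG
import Vale.Agent.P134B.SYM
import Vale.Agent.P134T.Calc

/-!
# P134H: the phase along segments
-/

open Metric Filter Topology Set
open scoped ContDiff RealInnerProductSpace
open Vale.Agent.P366.Stmt (E)
open Vale.Agent.P366W (smooth_gradient inner_grad)

noncomputable section

namespace Vale.Agent.P134H

open Vale.Agent.P134B Vale.Agent.P134B.Seg

variable {n : ℕ} {C : ℝ} {u : E n → ℝ}

/-- the height of the graph of the phase over its tangent plane -/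
def ht (u : E n → ℝ) (x y : E n) : ℝ := ps u y - ps u x - ⟪pp u x, y - x⟫

theorem dpe (h : Ok C u) (x v w : E n) (t : ℝ) :
    HasDerivAt (fun t : ℝ => pe u w (x + t • v)) ⟪SS u (x + t • v) v, w⟫ t := by
  simpa [pe] using (dpp h x v t).inner ℝ (hasDerivAt_const t w)

theorem smq (h : Ok C u) : ContDiff ℝ ∞ (qq u) :=
  contDiff_const.sub (h.tcp.norm_sq ℝ)

theorem dqq (h : Ok C u) (x v : E n) (t : ℝ) :
    HasDerivAt (fun t : ℝ => qq u (x + t • v)) ⟪gradient (qq u) (x + t • v), v⟫ t := by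
  rw [inner_grad]
  exact ((smq h).differentiable (by simp) _).hasFDerivAt.comp_hasDerivAt t (line x v t)

/-- the inequality of Harnack for `qq` -/
theorem harn (h : Ok C u) (x y : E n) : qq u y ≤ Real.exp (C * ‖y - x‖) * qq u x := by
  set v := y - x
  set a := C * ‖v‖
  have d : ∀ t : ℝ, HasDerivAt (fun t : ℝ => Real.exp (-(a * t)) * qq u (x + t • v))
      (Real.exp (-(a * t)) * (⟪gradient (qq u) (x + t • v), v⟫ - a * qq u (x + t • v))) t :=
    fun t => (((((hasDerivAt_id' t).const_mul a).fun_neg).exp).fun_mul (dqq h x v t)).congr_deriv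
      (by ring)
  have m := antitone_of_hasDerivAt_nonpos d fun t => mul_nonpos_of_nonneg_of_nonpos
    (Real.exp_pos _).le (by
      have := (real_inner_le_norm (gradient (qq u) (x + t • v)) v).trans
        (mul_le_mul_of_nonneg_right (h.q1 _) (norm_nonneg v))
      simp only [a]
      linarith)
  have k := m (zero_le_one (α := ℝ))
  simp only [mul_one, mul_zero, neg_zero, Real.exp_zero, one_mul, one_smul, zero_smul, add_zero, v,
    add_sub_cancel] at k
  rw [Real.exp_neg, inv_mul_le_iff₀ (Real.exp_pos _)] at k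
  exact k

/-- the formula of Taylor -/
theorem taylor (h : Ok C u) (x w : E n) :
    ∃ t ∈ Ioo (0 : ℝ) 1, ⟪SS u (x + t • w) w, w⟫ = 2 * ht u x (x + w) := by
  set a := ht u x (x + w) with ha
  have d1 : ∀ t : ℝ, HasDerivAt (fun t : ℝ => ps u (x + t • w) - t * pe u w x - a * t ^ 2)
      (pe u w (x + t • w) - pe u w x - 2 * a * t) t := fun t =>
    (((dps h x w t).fun_sub ((hasDerivAt_id' t).mul_const (pe u w x))).fun_sub
      ((hasDerivAt_pow 2 t).const_mul a)).congr_deriv (by simp; ring)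
  have d2 : ∀ t : ℝ, HasDerivAt (fun t : ℝ => pe u w (x + t • w) - pe u w x - 2 * a * t)
      (⟪SS u (x + t • w) w, w⟫ - 2 * a) t := fun t =>
    (((dpe h x w w t).sub_const (pe u w x)).fun_sub
      ((hasDerivAt_id' t).const_mul (2 * a))).congr_deriv (by ring)
  obtain ⟨c, hc, c0⟩ := exists_hasDerivAt_eq_zero (zero_lt_one (α := ℝ))
    (fun t _ => (d1 t).continuousAt.continuousWithinAt)
    (by simp [ha, ht, pe]) fun t _ => d1 t
  obtain ⟨t, ht', t0⟩ := exists_hasDerivAt_eq_zero hc.1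
    (fun t _ => (d2 t).continuousAt.continuousWithinAt) (by rw [c0]; simp) fun t _ => d2 t
  exact ⟨t, ⟨ht'.1, ht'.2.trans hc.2⟩, by linarith⟩

theorem ht_le (h : Ok C u) (x y : E n) : ht u x y ≤ 2 * ‖y - x‖ := by
  have a := (le_abs_self _).trans (h.tlip x y)
  have b := (neg_le_abs _).trans ((abs_real_inner_le_norm (pp u x) (y - x)).trans
    (mul_le_of_le_one_left (norm_nonneg _) (h.tpp_le x)))
  unfold ht
  linarith

/-- a far point above a paraboloid is not too far -/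
theorem far_le (h : Ok C u) {x w : E n} {φ : ℝ} (φ0 : 0 < φ)
    (hw : φ * ‖w‖ ^ 2 / 2 ≤ ht u x (x + w)) : ‖w‖ ≤ 4 / φ := by
  have a := hw.trans (ht_le h x (x + w))
  rw [add_sub_cancel_left] at a
  rw [le_div_iff₀ φ0]
  rcases (norm_nonneg w).eq_or_lt with k | k
  · rw [← k]; norm_num
  · nlinarith

/-- the depth of the phase on the segment to a point above a paraboloid -/
theorem depth (h : Ok C u) {x w : E n} {φ : ℝ} (φ0 : 0 < φ)
    (hw : φ * ‖w‖ ^ 2 / 2 ≤ ht u x (x + w)) {t : ℝ} (ht' : t ∈ Icc (0 : ℝ) 1) :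
    -ps u (x + t • w) ≤ (1 - qq u x / 2) / φ - ps u x := by
  have a := (neg_le_abs _).trans (h.tlip x (x + t • w))
  have b := (le_abs_self _).trans (h.tlip (x + t • w) (x + w))
  rw [add_sub_cancel_left, norm_smul, Real.norm_eq_abs, abs_of_nonneg ht'.1] at a
  rw [show x + w - (x + t • w) = (1 - t) • w by module, norm_smul, Real.norm_eq_abs,
    abs_of_nonneg (by linarith [ht'.2])] at b
  have c := (neg_le_abs _).trans (abs_real_inner_le_norm (pp u x) w)
  rw [ht, add_sub_cancel_left] at hw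
  have e : (1 - qq u x / 2) / φ * φ = 1 - qq u x / 2 := div_mul_cancel₀ _ φ0.ne'
  have k : ((1 + ‖pp u x‖) * ‖w‖ - φ * ‖w‖ ^ 2 / 2) / 2 ≤ (1 - qq u x / 2) / φ := by
    rw [le_div_iff₀ φ0, qq]
    nlinarith [sq_nonneg (φ * ‖w‖ - (1 + ‖pp u x‖)), sq_nonneg (1 - ‖pp u x‖)]
  nlinarith

/-- a paraboloid at `x` gives a paraboloid at the points near `x` -/
theorem move (h : Ok C u) {x w z : E n} {φ R : ℝ} (φ0 : 0 < φ) (w0 : w ≠ 0)
    (hw : φ * ‖w‖ ^ 2 / 2 ≤ ht u x (x + w)) (hS : ∀ y ∈ closedBall x R, ‖SS u y‖ ≤ φ / 4)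
    (hz : ‖z - x‖ ≤ R / 2) : x + w ≠ z ∧ φ / 5 * ‖x + w - z‖ ^ 2 / 2 ≤ ht u z (x + w) := by
  have wp : 0 < ‖w‖ := norm_pos_iff.2 w0
  have mem : ∀ (v : E n) (t : ℝ), ‖v‖ ≤ R → t ∈ Icc (0 : ℝ) 1 → x + t • v ∈ closedBall x R :=
    fun v t hv ht' => by
      rw [mem_closedBall, dist_eq_norm, add_sub_cancel_left, norm_smul, Real.norm_eq_abs,
        abs_of_nonneg ht'.1]
      nlinarith [ht'.1, ht'.2, norm_nonneg v]
  have quad : ∀ v : E n, ‖v‖ ≤ R → |ht u x (x + v)| ≤ φ / 8 * ‖v‖ ^ 2 := fun v hv => by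
    obtain ⟨t, t1, t2⟩ := taylor h x v
    have a := abs_real_inner_le_norm (SS u (x + t • v) v) v
    have b := (SS u (x + t • v)).le_of_opNorm_le (hS _ (mem v t hv (Ioo_subset_Icc_self t1))) v
    rw [t2, abs_mul, abs_two] at a
    nlinarith [norm_nonneg v]
  have hR : R < ‖w‖ := by
    by_contra k
    have := (le_abs_self _).trans (quad w (not_lt.1 k))
    nlinarith [mul_pos φ0 (pow_pos wp 2)]
  set v := z - x with hv
  have v0 := norm_nonneg v
  have zv : z = x + v := by simp [hv]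
  have a1 := (le_abs_self _).trans (quad v (by linarith))
  have a2 : ‖pp u z - pp u x‖ ≤ φ / 4 * ‖v‖ := by
    have := norm_image_sub_le_of_norm_deriv_le_segment' (C := φ / 4 * ‖v‖) (a := 0) (b := 1)
      (fun t _ => (dpp h x v t).hasDerivWithinAt) (fun t ht' => (SS u _).le_of_opNorm_le
        (hS _ (mem v t (by linarith) (Ico_subset_Icc_self ht'))) v) 1 ⟨zero_le_one, le_rfl⟩
    simpa [zv] using this
  have e1 : x + w - z = w - v := by rw [zv]; abel
  have n1 : ‖w - v‖ ≤ 3 / 2 * ‖w‖ := (norm_sub_le w v).trans (by linarith)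
  have n2 : ‖w‖ / 2 ≤ ‖w - v‖ := by linarith [norm_sub_norm_le w v]
  refine ⟨fun k => ?_, ?_⟩
  · rw [← sub_eq_zero, e1] at k
    rw [k, norm_zero] at n2
    linarith
  have e2 : ht u z (x + w) = ht u x (x + w) - ht u x (x + v) - ⟪pp u z - pp u x, w - v⟫ := by
    simp only [ht, e1, add_sub_cancel_left, inner_sub_left, inner_sub_right, ← zv, ← hv]
    ring
  have a3 := (real_inner_le_norm (pp u z - pp u x) (w - v)).trans
    (mul_le_mul a2 n1 (norm_nonneg _) (by positivity))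
  have v1 : ‖v‖ ≤ ‖w‖ / 2 := by linarith
  have a4 : ‖v‖ ^ 2 ≤ (‖w‖ / 2) ^ 2 := by gcongr
  have a5 : ‖w - v‖ ^ 2 ≤ (3 / 2 * ‖w‖) ^ 2 := by gcongr
  have a6 : ‖v‖ * ‖w‖ ≤ ‖w‖ / 2 * ‖w‖ := by gcongr
  rw [e1, e2]
  nlinarith [mul_le_mul_of_nonneg_left a4 φ0.le, mul_le_mul_of_nonneg_left a5 φ0.le,
    mul_le_mul_of_nonneg_left a6 φ0.le, mul_pos φ0 (pow_pos wp 2)]

end Vale.Agent.P134H
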