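import Vale.Agent.P134H.Mu
import Vale.Agent.P134H.Flat

/-!
# P134H: the defect of the two-point inequality, pointwise form
-/

open Metric Filter Topology Set
open scoped ContDiff RealInnerProductSpace
open Vale.Agent.P366.Stmt (E)

noncomputable section

namespace Vale.Agent.P134H

open Vale.Agent.P134B Vale.Agent.P134C

variable {n : ℕ} {C δ : ℝ} {u : E n → ℝ}

theorem log_q (a : ℝ) : Real.log (3 / (3 * Real.exp (-a))) = a := by
  rw [show 3 / (3 * Real.exp (-a)) = Real.exp a by rw [Real.exp_neg]; field_simp, Real.log_exp]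

theorem sub_cb {x y : E n} {r R : ℝ} (k : ‖y - x‖ + r ≤ R) : closedBall y r ⊆ closedBall x R :=
  closedBall_subset_closedBall' (by rw [dist_eq_norm]; linarith)

theorem nb {x z y : E n} (hy : y ∈ ball z 1) : ‖y - x‖ ≤ ‖z - x‖ + 1 := by
  have := norm_sub_le_norm_sub_add_norm_sub y z x
  rw [mem_ball, dist_eq_norm] at hy
  linarith

/-- the deep case: a point near the ridge below -/
theorem deep1 (h : Ok C u) {e x : E n} {c t om : ℝ} (he : ‖e‖ = 1) (ht' : ps u x = t)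
    (t1 : 800 ≤ t) (ct : 12 ≤ c * t) (a1 : 25 * t ≤ Real.exp (c * t))
    (hz : ∀ y ∈ closedBall x (18 * t), Zn (Real.exp (-(c * t))) u e y)
    (m0 : 0 < mu (-u) x) (hom : om = th u x / mu (-u) x - t) (om1 : 1 ≤ om)
    (hd : om + t / 200 ≤ t) : ∃ z, ‖z - x‖ ≤ 16 * t ∧ -ps u z ≤ om + 1 ∧ c * t / 2 ≤ -ps u z ∧
      1 / (12 * t) ≤ qq u z := by
  obtain ⟨d, hd'⟩ : ∃ d, d = Real.exp (-(c * t)) := ⟨_, rfl⟩
  rw [← hd'] at hz
  have d0 : 0 < d := hd' ▸ Real.exp_pos _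
  have θ1 := th_ge u x
  have θ2 := th_le h x
  obtain ⟨φ, hφ⟩ : ∃ φ, φ = th u x / (om + t + 1) := ⟨_, rfl⟩
  have φ0 : 0 < φ := hφ ▸ div_pos (by linarith) (by linarith)
  have φ1 : 1 ≤ φ * (4 * t) := by
    rw [hφ, div_mul_eq_mul_div, le_div_iff₀ (by linarith)]
    nlinarith only [θ1, t1, hd]
  have φ2 : φ < mu (-u) x := by
    have : th u x / mu (-u) x * mu (-u) x = th u x := div_mul_cancel₀ _ m0.ne'
    rw [hφ, div_lt_iff₀ (by linarith), hom]
    nlinarith only [this, m0]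
  obtain ⟨w, w0, hw⟩ := lt_mu φ0.le φ2
  rw [ht_neg, neg_neg] at hw
  have w1 : ‖w‖ ≤ 16 * t := (far_le h φ0 hw).trans (by rw [div_le_iff₀ φ0]; linarith)
  obtain ⟨s, hs, s1⟩ := taylor h x w
  have z1 : ‖x + s • w - x‖ ≤ 16 * t := by
    rw [add_sub_cancel_left, norm_smul, Real.norm_eq_abs, abs_of_pos hs.1]
    exact (mul_le_of_le_one_left (norm_nonneg w) hs.2.le).trans w1
  have z2 := depth h φ0 hw (Ioo_subset_Icc_self hs)
  have e1 : (1 - qq u x / 2) / φ = om + t + 1 := by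
    rw [hφ, div_div_eq_mul_div, th, mul_div_cancel_left₀]
    exact (show 0 < th u x by linarith).ne'
  rw [e1, ht'] at z2
  generalize x + s • w = z at *
  have zz := hz z (by rw [mem_closedBall, dist_eq_norm]; linarith)
  have dt : 25 * t * d ≤ 1 := by
    rw [hd', Real.exp_neg, mul_inv_le_iff₀ (Real.exp_pos _)]; linarith
  have dφ : 6 * d < φ := by nlinarith only [dt, φ1, t1, d0]
  obtain ⟨z3, z4⟩ := convex_dir h he w0 zz dφ (by linarith)
  refine ⟨z, z1, by linarith, ?_, ?_⟩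
  · have b1 := zz.t3.resolve_left (by linarith)
    have b2 := h.flo z
    have b3 := (h.lt z).le
    have s0 : 0 < √2 := by positivity
    have s2 : √2 ≤ 3 / 2 := Real.sqrt_le_iff.2 ⟨by norm_num, by norm_num⟩
    rw [ff, div_le_div_iff_of_pos_right s0, ← sq_abs] at b2
    have b4 : Real.exp (-(√2 * |ps u z|)) ≤ Real.exp (1 - c * t) := by
      rw [sub_eq_add_neg, Real.exp_add, ← hd']
      nlinarith only [Real.add_one_le_exp (1 : ℝ), abs_nonneg (u z), b1, b2, b3, d0]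
    rw [Real.exp_le_exp, abs_of_neg z3] at b4
    nlinarith only [b4, s2, z3, ct]
  · rw [div_le_iff₀ (by linarith)]
    nlinarith only [z4, φ1, t1]

/-- the deep case -/
theorem deep (h : Ok C u) {e x : E n} {c l t om : ℝ} (he : ‖e‖ = 1) (ht' : ps u x = t)
    (l0 : 0 < l) (lc : l ≤ c / 48) (l1 : l ≤ 1 / 600) (t1 : 800 ≤ t) (ct : 12 ≤ c * t)
    (a1 : 25 * t ≤ Real.exp (c * t)) (a2 : 36 * Real.exp C * t ≤ Real.exp (l * t))
    (a3 : 8 * Real.exp (-(c * t)) < 3 * Real.exp (-(l * t)))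
    (hz : ∀ y ∈ closedBall x (18 * t), Zn (Real.exp (-(c * t))) u e y)
    (m0 : 0 < mu (-u) x) (hom : om = th u x / mu (-u) x - t) (om1 : 1 ≤ om)
    (hd : om + t / 200 ≤ t) : ∃ z, ∀ y ∈ ball z 1, 1 + ‖x - y‖ ≤ 18 * t ∧
      |ps u y| ≤ 2 * t ∧ 1 / (2 * om) ≤ ph (-u) y ∧
      ff u x ^ 2 ≤ 6 * Real.exp (-(t / 300)) * EE u y := by
  obtain ⟨z, z1, z2, z5, z4⟩ := deep1 h he ht' t1 ct a1 hz m0 hom om1 hd
  refine ⟨z, fun y hy => ?_⟩
  have y1 := nb (x := x) hy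
  have y2 : ‖y - z‖ < 1 := mem_ball_iff_norm.1 hy
  have y3 := abs_le.1 (h.tlip z y)
  have q0 := h.q0 y
  have y4 : 3 * Real.exp (-(l * t)) ≤ qq u y := by
    have b1 := harn h y z
    have b2 : Real.exp (C * ‖z - y‖) ≤ Real.exp C := by
      rw [norm_sub_rev]
      exact Real.exp_le_exp.2 (mul_le_of_le_one_right (by linarith [h.C1]) y2.le)
    have b3 := z4.trans (b1.trans (mul_le_mul_of_nonneg_right b2 q0))
    rw [div_le_iff₀ (by linarith)] at b3
    rw [Real.exp_neg, mul_inv_le_iff₀ (Real.exp_pos _)]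
    nlinarith only [mul_le_mul_of_nonneg_left a2 q0, b3]
  have lt0 : 0 < l * t := mul_pos l0 (by linarith)
  have lt1 : l * t ≤ c * t / 48 := by nlinarith only [lc, t1]
  have lt2 : l * t ≤ t / 600 := by nlinarith only [l1, t1]
  obtain ⟨v, v1, v2⟩ := ric' h he (by positivity) y4 a3 (by rw [log_q]; linarith) fun p hp =>
    hz p (sub_cb (by rw [log_q]; linarith) hp)
  rw [log_q] at v1 v2
  have y5 : |ps u y| ≤ om + 2 := abs_le.2 ⟨by linarith, by linarith⟩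
  refine ⟨by rw [norm_sub_rev]; linarith, by linarith, ?_, ?_⟩
  · refine le_ph (Sy.ok h) (φ := 1 / (12 * (l * t))) (by positivity)
      (le_mu (Sy.ok h) (w := v) (by rw [← norm_pos_iff, v1]; positivity)
        (by rwa [ht_neg, neg_neg])) (by linarith) ?_
    rw [one_div_one_div, Sy.ps_neg, Pi.neg_apply]
    linarith
  · have b1 := ff_cmp h (x := x) (y := y) (a := t / 400) (by
      rw [ht', abs_of_pos (show 0 < t by linarith)]; linarith)
    have b2 : Real.exp (-(√2 * (t / 400))) ^ 2 ≤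
        Real.exp (-(t / 300)) * Real.exp (-(l * t)) := by
      rw [← Real.exp_nat_mul, ← Real.exp_add]
      exact Real.exp_le_exp.2 (by push_cast; nlinarith only [Real.one_lt_sqrt_two, lt2, t1])
    have f0 := h.tff_pos x
    calc ff u x ^ 2 ≤ (4 * Real.exp (-(√2 * (t / 400))) * ff u y) ^ 2 := by gcongr
      _ = 16 * Real.exp (-(√2 * (t / 400))) ^ 2 * ff u y ^ 2 := by ring
      _ ≤ 18 * (Real.exp (-(t / 300)) * Real.exp (-(l * t))) * ff u y ^ 2 := by gcongr; norm_num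
      _ = 6 * Real.exp (-(t / 300)) * (ff u y ^ 2 * (3 * Real.exp (-(l * t)))) := by ring
      _ ≤ _ := by unfold EE; gcongr

/-- the constant of the shallow case -/
def K1 (n : ℕ) (C : ℝ) : ℝ := (n * (32 * C ^ 2 + 256 * C ^ 2 * (3 * Real.exp (2 * C) + 1)) +
  (3 * Real.exp (2 * C) + 1)) * (16 * Real.exp 3 * Real.exp C)

theorem EE_cmp (h : Ok C u) {z y : E n} (hy : y ∈ ball z 1) :
    EE u z ≤ 16 * Real.exp 3 * Real.exp C * EE u y := by
  have y2 : ‖y - z‖ < 1 := mem_ball_iff_norm.1 hy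
  have b1 := ff_cmp h (x := z) (y := y) (a := -1) (by
    linarith [abs_sub_abs_le_abs_sub (ps u y) (ps u z), h.tlip z y])
  have s2 : √2 ≤ 3 / 2 := Real.sqrt_le_iff.2 ⟨by norm_num, by norm_num⟩
  have b2 : Real.exp (-(√2 * -1)) ^ 2 ≤ Real.exp 3 := by
    rw [← Real.exp_nat_mul]
    exact Real.exp_le_exp.2 (by push_cast; linarith)
  have b3 : qq u z ≤ Real.exp C * qq u y := (harn h y z).trans (mul_le_mul_of_nonneg_right (by
    rw [norm_sub_rev]
    exact Real.exp_le_exp.2 (by nlinarith [h.C1])) (h.q0 y))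
  have f0 := h.tff_pos z
  have q0 := h.q0 z
  calc EE u z ≤ (4 * Real.exp (-(√2 * -1)) * ff u y) ^ 2 * (Real.exp C * qq u y) := by
        unfold EE; gcongr
    _ = 16 * Real.exp (-(√2 * -1)) ^ 2 * Real.exp C * EE u y := by unfold EE; ring
    _ ≤ _ := by have := h.tEE_nn y; gcongr

theorem shal1 (h : Ok C u) {x : E n} {l t a : ℝ} (aC : C * a = l * t / 4)
    (hq : qq u x ≤ 3 * Real.exp (-(l * t))) : ∀ y ∈ closedBall x (2 * (a + 1)),
    qq u y ≤ 3 * Real.exp (2 * C) * Real.exp (-(l / 2 * t)) := fun y hy => by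
  rw [mem_closedBall, dist_eq_norm] at hy
  refine (harn h x y).trans ((mul_le_mul (Real.exp_le_exp.2
    (show C * ‖y - x‖ ≤ 2 * C + l / 2 * t by nlinarith [h.C1])) hq (h.q0 x)
    (Real.exp_pos _).le).trans (le_of_eq ?_))
  rw [mul_left_comm, mul_assoc, ← Real.exp_add, ← Real.exp_add]
  congr 2; ring

theorem shal2 (h : Ok C u) {x : E n} {l t a : ℝ} (ht' : ps u x = t) (t1 : 800 ≤ t)
    (aC : C * a = l * t / 4) (a1 : a ≤ t / 2)
    (a5 : 3 * Real.exp (2 * C) * (432 * C) ^ 2 * t ^ 2 ≤ Real.exp (l / 2 * t))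
    (m0 : 1 / (54 * t) ≤ mu (-u) x) (hq : qq u x ≤ 3 * Real.exp (-(l * t))) {y : E n}
    (hy : ‖y - x‖ ≤ a + 1) : 1 / (540 * t) ≤ ph (-u) y := by
  have C1 := h.C1
  have t0 : 0 < t := by linarith
  have φ0 : 0 < 1 / (108 * t) := by positivity
  obtain ⟨w, w0, hw⟩ := lt_mu φ0.le (lt_of_lt_of_le
    (one_div_lt_one_div_of_lt (by linarith) (by linarith)) m0)
  rw [ht_neg, neg_neg] at hw
  have hS : ∀ y ∈ closedBall x (2 * (a + 1)), ‖SS u y‖ ≤ 1 / (108 * t) / 4 := fun y hy => by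
    refine (h.S0 y).trans ?_
    rw [← le_div_iff₀' (by linarith)]
    refine Real.sqrt_le_iff.2 ⟨by positivity, (shal1 h aC hq y hy).trans ?_⟩
    rw [Real.exp_neg, mul_inv_le_iff₀ (Real.exp_pos _)]
    refine le_trans (le_of_eq ?_) (mul_le_mul_of_nonneg_left a5 (sq_nonneg _))
    field_simp; norm_num
  have y3 := abs_le.1 (h.tlip x y)
  obtain ⟨v1, v2⟩ := move h (z := y) φ0 w0 hw hS (by linarith)
  refine le_ph (Sy.ok h) (φ := 1 / (108 * t) / 5) (by positivity)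
    (le_mu (Sy.ok h) (w := x + w - y) (sub_ne_zero.2 v1)
      (by rwa [ht_neg, neg_neg, add_sub_cancel])) (by linarith) ?_
  rw [Sy.ps_neg, Pi.neg_apply, show 1 / (1 / (108 * t) / 5) = 540 * t by field_simp; norm_num]
  linarith

theorem shal3 {N C X Y t a q A B F Ez Ey K : ℝ} (N0 : 0 ≤ N) (X0 : 0 ≤ X) (Y0 : 0 ≤ Y)
    (t1 : 1 ≤ t) (a0 : 0 ≤ a) (a1 : a ≤ t) (E0 : 0 ≤ Ez) (hq : q ≤ X * Y)
    (hA : A ≤ (32 * C ^ 2 * Y + 256 * C ^ 2 * a ^ 2 * q) * Ez) (hB : B ≤ Ez * q)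
    (hE : Ez ≤ K * Ey) (hF : F = N * A + B) :
    F ≤ (N * (32 * C ^ 2 + 256 * C ^ 2 * X) + X) * K * t ^ 2 * Y * Ey := by
  have t2 : 1 ≤ t ^ 2 := one_le_pow₀ t1
  have y1 : Y ≤ t ^ 2 * Y := le_mul_of_one_le_left Y0 t2
  have b0 : a ^ 2 * q ≤ t ^ 2 * (X * Y) :=
    (mul_le_mul_of_nonneg_left hq (sq_nonneg _)).trans (by gcongr)
  have b1 : A ≤ (32 * C ^ 2 * (t ^ 2 * Y) + 256 * C ^ 2 * (t ^ 2 * (X * Y))) * Ez := by
    refine hA.trans ?_
    rw [mul_assoc (256 * C ^ 2)]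
    gcongr
  have b2 : B ≤ Ez * (X * (t ^ 2 * Y)) := hB.trans (by gcongr; exact hq.trans (by gcongr))
  calc F ≤ (N * (32 * C ^ 2 + 256 * C ^ 2 * X) + X) * (t ^ 2 * Y) * Ez := by
        have := mul_le_mul_of_nonneg_left b1 N0
        linarith
    _ ≤ (N * (32 * C ^ 2 + 256 * C ^ 2 * X) + X) * (t ^ 2 * Y) * (K * Ey) := by gcongr
    _ = _ := by ring

/-- the shallow case -/
theorem shal (h : Ok C u) {e x : E n} {c l t : ℝ} (he : ‖e‖ = 1) (ht' : ps u x = t) (l0 : 0 < l)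
    (lc : l ≤ c / 48) (l1 : l ≤ 1 / 600) (t1 : 800 ≤ t)
    (a4 : 2 * (3 * Real.exp (2 * C) + 1) ≤ Real.exp (l / (4 * C) * t))
    (a5 : 3 * Real.exp (2 * C) * (432 * C) ^ 2 * t ^ 2 ≤ Real.exp (l / 2 * t))
    (hz : ∀ y ∈ closedBall x (18 * t), Zn (Real.exp (-(c * t))) u e y)
    (m0 : 1 / (54 * t) ≤ mu (-u) x) (hq : qq u x ≤ 3 * Real.exp (-(l * t))) :
    ∃ z, ∀ y ∈ ball z 1, 1 + ‖x - y‖ ≤ 18 * t ∧ |ps u y| ≤ 2 * t ∧ 1 / (540 * t) ≤ ph (-u) y ∧
      ls u x ≤ K1 n C * t ^ 2 * Real.exp (-(l / (4 * C) * t)) * EE u y := by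
  have C1 := h.C1
  have t0 : 0 < t := by linarith
  obtain ⟨a, ha⟩ : ∃ a, a = l / (4 * C) * t := ⟨_, rfl⟩
  rw [← ha] at a4 ⊢
  have a0 : 0 < a := by rw [ha]; positivity
  have aC : C * a = l * t / 4 := by rw [ha]; field_simp
  have lt0 : 0 < l * t := by positivity
  have lt1 : l * t ≤ c * t / 48 := by nlinarith only [lc, t1]
  have lt2 : l * t ≤ t / 600 := by nlinarith only [l1, t1]
  have a1 : a ≤ l * t / 4 := by nlinarith only [aC, a0, C1]
  have q1 := shal1 h aC hq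
  have X0 := Real.exp_pos (2 * C)
  have Q1 : 3 * Real.exp (2 * C) * Real.exp (-(l / 2 * t)) + Real.exp (-(c * t)) ^ 2 ≤
      (3 * Real.exp (2 * C) + 1) * Real.exp (-a) := by
    have b1 : Real.exp (-(l / 2 * t)) ≤ Real.exp (-a) := Real.exp_le_exp.2 (by linarith)
    have b2 : Real.exp (-(c * t)) ^ 2 ≤ Real.exp (-a) := by
      rw [← Real.exp_nat_mul]
      exact Real.exp_le_exp.2 (by push_cast; linarith)
    nlinarith only [b1, b2, X0]
  have Q2 : (3 * Real.exp (2 * C) + 1) * Real.exp (-a) ≤ 1 / 2 := by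
    rw [Real.exp_neg, mul_inv_le_iff₀ (Real.exp_pos _)]; linarith
  obtain ⟨z, z1, z2, z3⟩ := step h he a0.le (by linarith) (Q1.trans Q2) fun y hy =>
    ⟨hz y (closedBall_subset_closedBall (by linarith) hy),
      q1 y (closedBall_subset_closedBall (by linarith) hy)⟩
  rw [mem_closedBall, dist_eq_norm] at z1
  refine ⟨z, fun y hy => ?_⟩
  have y1 := nb (x := x) hy
  have y3 := abs_le.1 (h.tlip x y)
  exact ⟨by rw [norm_sub_rev]; linarith, abs_le.2 ⟨by linarith, by linarith⟩,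
    shal2 h ht' t1 aC (by linarith) a5 m0 hq (by linarith),
    shal3 (Nat.cast_nonneg n) (by positivity) (Real.exp_pos _).le (by linarith) a0.le (by linarith)
      (h.tEE_nn z) Q1 z3 (mul_le_mul z2 ((q1 x (mem_closedBall_self (by linarith))).trans
        (le_add_of_nonneg_right (sq_nonneg _))) (h.q0 x) (h.tEE_nn z)) (EE_cmp h hy) rfl⟩

end Vale.Agent.P134H
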