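import Vale.Agent.P134H.E4p

/-!
# P134H: the defect is paid per cell or by the gain on a unit ball
-/

open Metric Filter Topology Set
open scoped ContDiff RealInnerProductSpace
open Vale.Agent.P366.Stmt (E)

noncomputable section

namespace Vale.Agent.P134H

open Vale.Agent.P134B Vale.Agent.P134C

variable {n : ℕ} {C δ : ℝ} {u : E n → ℝ}

/-- the two cases -/
theorem both (h : Ok C u) {e x : E n} {c l t : ℝ} (he : ‖e‖ = 1) (ht' : ps u x = t)
    (l0 : 0 < l) (lc : l ≤ c / 48) (l1 : l ≤ 1 / 600) (t1 : 800 ≤ t) (ct : 12 ≤ c * t)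
    (a1 : 25 * t ≤ Real.exp (c * t)) (a2 : 36 * Real.exp C * t ≤ Real.exp (l * t))
    (a3 : 8 * Real.exp (-(c * t)) < 3 * Real.exp (-(l * t)))
    (a4 : 2 * (3 * Real.exp (2 * C) + 1) ≤ Real.exp (l / (4 * C) * t))
    (a5 : 3 * Real.exp (2 * C) * (432 * C) ^ 2 * t ^ 2 ≤ Real.exp (l / 2 * t))
    (hz : ∀ y ∈ closedBall x (18 * t), Zn (Real.exp (-(c * t))) u e y)
    (hG : GG u x < 1) (hd : 1 / 26 ≤ t * (ph (-u) x - ph u x)) :
    ∃ z, ∀ y ∈ ball z 1, 1 + ‖x - y‖ ≤ 18 * t ∧ |ps u y| ≤ 2 * t ∧ GG u x ≤ 2160 * GG u y ∧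
      ls u x ≤ (K1 n C + 6 * (n * C ^ 2 + 1)) * t ^ 2 * Real.exp (-(l / (4 * C) * t)) * EE u y := by
  have C1 := h.C1
  have t0 : 0 < t := by linarith
  have p1 := ph_nn h x
  have p2 : ph u x < ph (-u) x := by
    by_contra k
    nlinarith only [mul_nonneg t0.le (sub_nonneg.2 (not_lt.1 k)), hd]
  have p3 := (GG_ge u x h).trans_lt hG
  have p0 := p1.trans_lt p2
  obtain ⟨m0, e1⟩ := ph_eq (Sy.ok h) p0 p3
  rw [th_neg, Sy.ps_neg, Pi.neg_apply, ht', ← sub_eq_add_neg] at e1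
  obtain ⟨om, hom⟩ : ∃ om, om = th u x / mu (-u) x - t := ⟨_, rfl⟩
  rw [← hom] at e1
  have g1 := GG_le h p2.le
  have om1 : 1 ≤ om := by nlinarith only [e1, p0, p3]
  have K0 : 0 ≤ K1 n C := by unfold K1; positivity
  have t2 : 1 ≤ t ^ 2 := one_le_pow₀ (by linarith)
  rcases le_or_gt (om + t / 200) t with k | k
  · obtain ⟨z, hz'⟩ := deep h he ht' l0 lc l1 t1 ct a1 a2 a3 hz m0 hom om1 k
    refine ⟨z, fun y hy => ?_⟩
    obtain ⟨b1, b2, b3, b4⟩ := hz' y hy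
    have E0 := h.tEE_nn y
    refine ⟨b1, b2, ?_, (ls_le h x).trans ?_⟩
    · have b5 := b3.trans (GG_ge u y h)
      rw [div_le_iff₀ (by linarith)] at b5
      have b6 : 0 < GG u y := by nlinarith only [b5, om1]
      nlinarith only [mul_le_mul_of_nonneg_left b5 p0.le, e1, g1, b6]
    · have b5 : Real.exp (-(t / 300)) ≤ t ^ 2 * Real.exp (-(l / (4 * C) * t)) := by
        refine le_trans (Real.exp_le_exp.2 ?_) (le_mul_of_one_le_left (Real.exp_pos _).le t2)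
        have : l / (4 * C) ≤ 1 / 300 := by rw [div_le_iff₀ (by linarith)]; linarith
        nlinarith only [this, t0]
      calc _ ≤ (n * C ^ 2 + 1) * (6 * (t ^ 2 * Real.exp (-(l / (4 * C) * t))) * EE u y) := by
            gcongr
            exact b4.trans (by gcongr)
        _ = (0 + 6 * (n * C ^ 2 + 1)) * t ^ 2 * Real.exp (-(l / (4 * C) * t)) * EE u y := by ring
        _ ≤ _ := by gcongr
  have lt0 : 0 < l * t := mul_pos l0 t0
  have lt2 : l * t ≤ t / 600 := by nlinarith only [l1, t1]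
  have c1 : t * ph (-u) x ≤ 200 / 199 := by nlinarith only [e1, k, p0]
  have hq : qq u x ≤ 3 * Real.exp (-(l * t)) := by
    by_contra k'
    obtain ⟨v, v1, v2⟩ := ric h he (by positivity) (not_le.1 k').le a3 (by rw [log_q]; linarith)
      fun p hp => hz p (closedBall_subset_closedBall (by rw [log_q]; linarith) hp)
    rw [log_q] at v1 v2
    have b1 := le_ph h (φ := 1 / (12 * (l * t))) (W := 51 / 50 * t) (by positivity)
      (le_mu h (by rw [← norm_pos_iff, v1]; positivity) v2) (by linarith)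
      (by rw [one_div_one_div]; linarith)
    rw [div_le_iff₀ (by linarith)] at b1
    linarith
  have m1 : 1 / (54 * t) ≤ mu (-u) x := by
    have b1 : om ≤ 26 * t := by nlinarith only [e1, hd, mul_nonneg t0.le p1, om1]
    have b2 : th u x / mu (-u) x ≤ 27 * t := by linarith
    rw [div_le_iff₀ m0] at b2
    rw [div_le_iff₀ (by linarith)]
    linarith [th_ge u x]
  obtain ⟨z, hz'⟩ := shal h he ht' l0 lc l1 t1 a4 a5 hz m1 hq
  refine ⟨z, fun y hy => ?_⟩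
  obtain ⟨b1, b2, b3, b4⟩ := hz' y hy
  have E0 := h.tEE_nn y
  refine ⟨b1, b2, ?_, b4.trans ?_⟩
  · have b5 := b3.trans (GG_ge u y h)
    rw [div_le_iff₀ (by linarith)] at b5
    refine le_of_mul_le_mul_left ?_ t0
    nlinarith only [b5, c1, mul_le_mul_of_nonneg_left g1 t0.le]
  · gcongr
    exact le_add_of_nonneg_right (by positivity)

theorem paid (h : Ok C u) {x : E n} {d τ t : ℝ} {k : ℕ} (ht' : ps u x = t) (t0 : 0 ≤ t)
    (d0 : 0 ≤ d) (τ0 : 0 < τ) (hk : k * Real.log (1 + d) ≤ t)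
    (a : 16 * (n * C ^ 2 + 1) / τ * t ≤ Real.exp (1 * t)) :
    hh u x * Xd u x * (1 + d) ^ k ≤ τ := by
  have b1 : (1 + d) ^ k ≤ Real.exp t := by
    rw [← Real.log_le_iff_le_exp (by positivity), Real.log_pow]; exact hk
  have b2 : ff u x ^ 2 ≤ 8 * Real.exp (-(2 * t)) := by
    have s2 : √2 ^ 2 = 2 := Real.sq_sqrt (by norm_num)
    have c := pow_le_pow_left₀ (h.tff_pos x).le (h.fhi x) 2
    rw [mul_pow, mul_pow, s2, ← Real.exp_nat_mul, ht', abs_of_nonneg t0] at c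
    have : Real.exp ((2 : ℕ) * -(√2 * t)) ≤ Real.exp (-(2 * t)) :=
      Real.exp_le_exp.2 (by push_cast; nlinarith [Real.one_lt_sqrt_two])
    linarith
  have b3 := loss_le h (x := x) (ht' ▸ t0)
  rw [div_mul_eq_mul_div, div_le_iff₀ τ0, one_mul] at a
  have e : Real.exp t * (Real.exp (-(2 * t)) * Real.exp t) = 1 := by
    rw [← Real.exp_add, ← Real.exp_add, ← Real.exp_zero]; congr 1; ring
  calc _ ≤ 2 * t * ((n * C ^ 2 + 1) * (8 * Real.exp (-(2 * t)))) * Real.exp t := by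
        refine mul_le_mul (b3.trans ?_) b1 (by positivity) (by positivity)
        rw [ht']
        gcongr
        exact (ls_le h x).trans (by gcongr)
    _ = 16 * (n * C ^ 2 + 1) * t * (Real.exp (-(2 * t)) * Real.exp t) := by ring
    _ ≤ Real.exp t * τ * (Real.exp (-(2 * t)) * Real.exp t) := by gcongr
    _ = τ := by linear_combination τ * e

theorem gained (h : Ok C u) {x y : E n} {K σ τ t : ℝ} {k : ℕ} (ht' : ps u x = t) (t1 : 1 ≤ t)
    (K0 : 0 ≤ K) (τ0 : 0 < τ) (b1 : 1 + ‖x - y‖ ≤ 18 * t) (b2 : |ps u y| ≤ 2 * t)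
    (b4 : ls u x ≤ K * t ^ 2 * Real.exp (-(σ * t)) * EE u y)
    (a : 10 * K * 18 ^ k / τ * t ^ (k + 5) ≤ Real.exp (σ * t)) :
    hh u x * Xd u x * (1 + ‖x - y‖) ^ k ≤ τ * Gn u y := by
  have E0 := h.tEE_nn y
  have t0 : 0 < t := by linarith
  have b3 := loss_le h (x := x) (by linarith)
  have c1 : 1 + ps u y ^ 2 ≤ 5 * t ^ 2 := by
    nlinarith [sq_abs (ps u y), abs_nonneg (ps u y)]
  have c2 : EE u y / (5 * t ^ 2) ≤ Gn u y := le_trans (by gcongr) (Gn_ge h y)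
  rw [div_mul_eq_mul_div, div_le_iff₀ τ0] at a
  have e : Real.exp (σ * t) * Real.exp (-(σ * t)) = 1 := by rw [← Real.exp_add]; simp
  calc _ ≤ 2 * t * (K * t ^ 2 * Real.exp (-(σ * t)) * EE u y) * (18 * t) ^ k := by
        refine mul_le_mul (b3.trans ?_) (by gcongr) (by positivity) (by positivity)
        rw [ht']
        gcongr
    _ = 10 * K * 18 ^ k * t ^ (k + 5) * (Real.exp (-(σ * t)) * (EE u y / (5 * t ^ 2))) := by
        field_simp; ring
    _ ≤ Real.exp (σ * t) * τ * (Real.exp (-(σ * t)) * Gn u y) := by gcongr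
    _ = _ := by linear_combination τ * Gn u y * e

/-- the alternative for the defect -/
def Alt (k : ℕ) (τ δ : ℝ) (u : E n → ℝ) (x : E n) : Prop :=
  hh u x * Xd u x * (1 + dd δ u x) ^ k ≤ τ ∨ ∃ z, ∀ y ∈ ball z 1, GG u x ≤ 2160 * GG u y ∧
    hh u x * Xd u x * (1 + ‖x - y‖) ^ k ≤ τ * Gn u y

theorem alt0 (m k : ℕ) (C τ : ℝ) (k0 : 0 < k) (τ0 : 0 < τ) : ∃ t₀ : ℝ,
    ∀ (δ : ℝ) (u : E (m + 1) → ℝ) (x : E (m + 1)), Rt C δ u → t₀ ≤ ps u x → GG u x < 1 →
    1 / 26 ≤ ps u x * (ph (-u) x - ph u x) → Alt k τ δ u x := by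
  rcases lt_or_ge C 1 with C1 | C1
  · exact ⟨0, fun _ _ _ h => absurd h.ok.C1 C1.not_ge⟩
  obtain ⟨c, c0, t₁, H⟩ := flat m C k 18 (by positivity) (by norm_num)
  obtain ⟨l, l0, lc, l1⟩ : ∃ l > (0 : ℝ), l ≤ c / 48 ∧ l ≤ 1 / 600 :=
    ⟨min (c / 48) (1 / 600), by positivity, min_le_left _ _, min_le_right _ _⟩
  obtain ⟨t₀, ht₀⟩ := eventually_atTop.1 <|
    (((eventually_ge_atTop t₁).and (eventually_ge_atTop 800)).and
    ((eventually_ge_atTop (12 / c)).and (ev 25 1 c0))).and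
    ((((ev (36 * Real.exp C) 1 l0).and (ev 3 0 (half_pos c0))).and
    ((ev (2 * (3 * Real.exp (2 * C) + 1)) 0 (c := l / (4 * C)) (by positivity)).and
    (ev (3 * Real.exp (2 * C) * (432 * C) ^ 2) 2 (half_pos l0)))).and
    ((ev (16 * ((m + 1 : ℕ) * C ^ 2 + 1) / τ) 1 one_pos).and
    (ev (10 * (K1 (m + 1) C + 6 * ((m + 1 : ℕ) * C ^ 2 + 1)) * 18 ^ k / τ) (k + 5)
      (c := l / (4 * C)) (by positivity))))
  refine ⟨t₀, fun δ u x h hx hG hd => ?_⟩
  obtain ⟨⟨⟨a0, t1⟩, ct, a1⟩, ⟨⟨a2, a3⟩, a4, a5⟩, a6, a7⟩ := ht₀ _ hx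
  simp only [pow_zero, mul_one, pow_one] at a1 a2 a3 a4 a6
  rcases le_total (k * Real.log (1 + dd δ u x)) (ps u x) with p | p
  · exact .inl (paid h.ok rfl (by linarith) infDist_nonneg τ0 p a6)
  obtain ⟨e, he, hz⟩ := H δ u x _ h a0 (abs_of_pos (by linarith)).le p
  rw [div_le_iff₀' c0] at ct
  obtain ⟨z, hz'⟩ := both h.ok he rfl l0 lc l1 t1 ct a1 a2 (by
    have b1 : Real.exp (c / 2 * ps u x) * Real.exp (-(c * ps u x)) ≤ Real.exp (-(l * ps u x)) := by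
      rw [← Real.exp_add]
      exact Real.exp_le_exp.2 (by nlinarith only [lc, c0, t1])
    nlinarith only [b1, a3, Real.exp_pos (-(c * ps u x))]) a4 a5 (fun y hy => (hz y hy).1) hG hd
  refine .inr ⟨z, fun y hy => ?_⟩
  obtain ⟨b1, b2, b3, b4⟩ := hz' y hy
  exact ⟨b3, gained h.ok rfl (by linarith) (by unfold K1; positivity) τ0 b1 b2 b4 a7⟩

/-- **E4P** -/
theorem alt (m k : ℕ) (C τ : ℝ) (k0 : 0 < k) (τ0 : 0 < τ) : ∃ g₀ > (0 : ℝ),
    ∀ (δ : ℝ) (u : E (m + 1) → ℝ) (x : E (m + 1)), Rt C δ u → GG u x ≤ g₀ → Alt k τ δ u x := by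
  obtain ⟨t₀, H⟩ := alt0 m k C τ k0 τ0
  have key : ∀ (δ : ℝ) (u : E (m + 1) → ℝ) (x : E (m + 1)), Rt C δ u → 0 ≤ ps u x →
      GG u x ≤ 1 / (26 * (|t₀| + 1)) → Alt k τ δ u x := fun δ u x h t0 hG => by
    by_cases hd : 1 / 26 ≤ df u x
    swap
    · exact .inl (by rw [Xd, if_neg hd, mul_zero, zero_mul]; exact τ0.le)
    have a := (le_max_iff.1 hd).resolve_left (by norm_num)
    have T0 : 0 < |t₀| + 1 := by positivity
    have b := (GG_ge u x h.ok).trans hG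
    rw [le_div_iff₀ (by linarith)] at b hG
    refine H δ u x h ?_ (by nlinarith only [hG, abs_nonneg t₀]) a
    have c : ph (-u) x * (|t₀| + 1) ≤ ph (-u) x * ps u x := by
      nlinarith only [a, b, mul_nonneg t0 (ph_nn h.ok x)]
    have p : 0 < ph (-u) x := by
      refine (ph_nn (Sy.ok h.ok) x).lt_of_ne fun e => ?_
      rw [← e] at a
      nlinarith only [a, mul_nonneg t0 (ph_nn h.ok x)]
    linarith [le_of_mul_le_mul_left c p, le_abs_self t₀]
  refine ⟨1 / (26 * (|t₀| + 1)), by positivity, fun δ u x h hG => ?_⟩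
  rcases le_total 0 (ps u x) with k | k
  · exact key δ u x h k hG
  · simpa only [Alt, hh_neg, Xd_neg, dd_neg, GG_neg, Gn_neg] using
      key δ (-u) x (rt_neg h) (by rw [Sy.ps_neg, Pi.neg_apply]; linarith) (by rwa [GG_neg])

end Vale.Agent.P134H
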