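import Vale.Agent.P134B.KB0

/-!
# P134H: bounds for the derivatives of all orders
-/

open MeasureTheory Metric Filter Topology Set
open scoped ContDiff RealInnerProductSpace
open Vale.Agent.P366.Stmt (E)
open Vale.Agent.P366W
open Vale.Agent.P134 Vale.Agent.P134.SM Vale.Agent.P134B Vale.Agent.P134B.KB

noncomputable section

namespace Vale.Agent.P134H

variable {n k : ℕ} {φ ψ : (Fin n → ℝ) → ℝ} {x : Fin n → ℝ} {A B : ℝ}

/-- the derivatives up to the order `k` at `x` are bounded by `B` -/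
def Bd (k : ℕ) (φ : (Fin n → ℝ) → ℝ) (x : Fin n → ℝ) (B : ℝ) : Prop :=
  ∀ l : List (Fin n), l.length ≤ k → |ipd l φ x| ≤ B

theorem sm_pd (h : ContDiff ℝ ∞ φ) (i : Fin n) : ContDiff ℝ ∞ (pd i φ) :=
  (h.fderiv_right (m := ∞) le_rfl).clm_apply contDiff_const

theorem sm_ipd (h : ContDiff ℝ ∞ φ) : ∀ l, ContDiff ℝ ∞ (ipd l φ)
  | [] => h
  | i :: l => sm_pd (sm_ipd h l) i

theorem sm_nice (h : Nice φ) : ContDiff ℝ ∞ φ := contDiff_infty.2 fun k => Nice.contDiff k φ h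

theorem ipd_lin (h : ContDiff ℝ ∞ φ) (h' : ContDiff ℝ ∞ ψ) (a b : ℝ) : ∀ l,
    ipd l (fun y => a * φ y + b * ψ y) = fun y => a * ipd l φ y + b * ipd l ψ y
  | [] => rfl
  | i :: l => by
    have d := (sm_ipd h l).differentiable (by simp)
    have d' := (sm_ipd h' l).differentiable (by simp)
    funext y
    rw [ipd_cons, ipd_lin h h' a b l, pd_add ((d y).const_mul a) ((d' y).const_mul b),
      H283.pd_cmul a d, H283.pd_cmul b d']
    rfl

theorem Bd.zero (h : Bd k φ x B) : |φ x| ≤ B := h [] (by simp)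

theorem Bd.nn (h : Bd k φ x B) : 0 ≤ B := (abs_nonneg _).trans h.zero

theorem Bd.mono (h : Bd k φ x A) (h' : A ≤ B) : Bd k φ x B := fun l hl => (h l hl).trans h'

theorem Bd.pred (h : Bd (k + 1) φ x B) : Bd k φ x B := fun l hl => h l (by omega)

theorem Bd.pd (h : Bd (k + 1) φ x B) (i : Fin n) : Bd k (pd i φ) x B := fun l hl => by
  rw [← H283.ipd_append]
  exact h _ (by simpa using hl)

theorem bd_zero (h : |φ x| ≤ B) : Bd 0 φ x B := fun l hl => by
  rw [List.length_eq_zero_iff.1 (Nat.le_zero.1 hl)]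
  exact h

theorem bd_succ (h : |φ x| ≤ B) (h' : ∀ i, Bd k (pd i φ) x B) : Bd (k + 1) φ x B := fun l hl => by
  rcases List.eq_nil_or_concat l with rfl | ⟨l, i, rfl⟩
  · exact h
  · rw [List.concat_eq_append, H283.ipd_append]
    exact h' i l (by simpa using hl)

theorem Bd.lin (s : ContDiff ℝ ∞ φ) (s' : ContDiff ℝ ∞ ψ) (h : Bd k φ x A) (h' : Bd k ψ x B)
    (a b : ℝ) : Bd k (fun y => a * φ y + b * ψ y) x (|a| * A + |b| * B) := fun l hl => by
  rw [ipd_lin s s']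
  refine (abs_add_le _ _).trans ?_
  rw [abs_mul, abs_mul]
  gcongr
  exacts [h l hl, h' l hl]

theorem Bd.mul (s : ContDiff ℝ ∞ φ) (s' : ContDiff ℝ ∞ ψ) (h : Bd k φ x A) (h' : Bd k ψ x B) :
    Bd k (fun y => φ y * ψ y) x (2 ^ k * (A * B)) := by
  have z : ∀ {k} {φ ψ : (Fin n → ℝ) → ℝ}, Bd k φ x A → Bd k ψ x B →
      |φ x * ψ x| ≤ 2 ^ k * (A * B) := fun h h' => by
    rw [abs_mul]
    exact (mul_le_mul h.zero h'.zero (abs_nonneg _) h.nn).trans
      (le_mul_of_one_le_left (mul_nonneg h.nn h'.nn) (one_le_pow₀ one_le_two))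
  induction k generalizing φ ψ with
  | zero => exact bd_zero (z h h')
  | succ k ih =>
    refine bd_succ (z h h') fun i => ?_
    rw [show P134.pd i (fun y => φ y * ψ y) =
      fun y => 1 * (φ y * P134.pd i ψ y) + 1 * (P134.pd i φ y * ψ y) from funext fun y => by
        rw [pd_mul (s.differentiable (by simp) y) (s'.differentiable (by simp) y)]; ring]
    exact (Bd.lin (s.mul (sm_pd s' i)) ((sm_pd s i).mul s') (ih s (sm_pd s' i) h.pred (h'.pd i))
      (ih (sm_pd s i) s' (h.pd i) h'.pred) 1 1).mono (by rw [pow_succ]; simp; linarith)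

theorem bd_sum {ι : Type} (s : Finset ι) {F : ι → (Fin n → ℝ) → ℝ} (hF : ∀ i, ContDiff ℝ ∞ (F i))
    (h : ∀ i, Bd k (F i) x B) : Bd k (fun y => ∑ i ∈ s, F i y) x (s.card * B) := by
  classical
  induction s using Finset.induction_on with
  | empty =>
    intro l _
    have := congrFun (ipd_lin (φ := fun _ => 0) (ψ := fun _ => 0) contDiff_const contDiff_const
      0 0 l) x
    simp only [zero_mul, add_zero] at this
    simp [this]
  | insert i s hi ih =>
    simpa [Finset.sum_insert hi, Finset.card_insert_of_notMem hi, add_mul, add_comm] using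
      Bd.lin (hF i) (ContDiff.sum fun i _ => hF i) (h i) ih 1 1

/-- quotients -/
theorem quo (k : ℕ) {c : ℝ} (hc : 0 ≤ c) : ∃ K ≥ (1 : ℝ), ∀ {n : ℕ} {F w : (Fin n → ℝ) → ℝ}
    {x : Fin n → ℝ} {A : ℝ}, ContDiff ℝ ∞ F → ContDiff ℝ ∞ w → 0 < F x → Bd k F x (c * F x) →
    Bd k (fun y => F y * w y) x (A * F x) → Bd k w x (K * A) := by
  have z : ∀ {k n : ℕ} {F w : (Fin n → ℝ) → ℝ} {x : Fin n → ℝ} {A : ℝ}, 0 < F x →
      Bd k (fun y => F y * w y) x (A * F x) → |w x| ≤ A := fun F0 h => by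
    have := h.zero
    rw [abs_mul, abs_of_pos F0, mul_comm] at this
    exact le_of_mul_le_mul_right this F0
  induction k with
  | zero => exact ⟨1, le_rfl, fun _ _ F0 _ h => bd_zero ((z F0 h).trans_eq (one_mul _).symm)⟩
  | succ k ih =>
    obtain ⟨K, K1, H⟩ := ih
    have K2 : 1 ≤ 1 + 2 ^ k * (K * c) := le_add_of_nonneg_right (by positivity)
    refine ⟨K * (1 + 2 ^ k * (K * c)), one_le_mul_of_one_le_of_one_le K1 K2,
      fun {n F w x A} sF sw F0 hF h => bd_succ ((z F0 h).trans (le_mul_of_one_le_left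
        ((abs_nonneg _).trans (z F0 h)) (one_le_mul_of_one_le_of_one_le K1 K2))) fun i => ?_⟩
    rw [mul_assoc]
    refine H sF (sm_pd sw i) F0 hF.pred ?_
    rw [show (fun y => F y * pd i w y) =
      fun y => 1 * pd i (fun y => F y * w y) y + -1 * (w y * pd i F y) from funext fun y => by
        rw [pd_mul (sF.differentiable (by simp) y) (sw.differentiable (by simp) y)]; ring]
    exact (Bd.lin (sm_pd (sF.mul sw) i) (sw.mul (sm_pd sF i)) (h.pd i)
      (Bd.mul sw (sm_pd sF i) (H sF sw F0 hF.pred h.pred) (hF.pd i)) 1 (-1)).mono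
      (by simp; linarith)

/-- the tangential part of a basis vector -/
def tg (e : Fin n → ℝ) (i : Fin n) : Fin n → ℝ := fun l => (if l = i then 1 else 0) - e i * e l

theorem tg_le {e : Fin n → ℝ} (he : ∑ i, e i ^ 2 = 1 ∨ e = 0) (i : Fin n) :
    ∑ l, tg e i l ^ 2 ≤ 1 ∧ ∑ l, tg e i l * e l = 0 := by
  have e1 : ∀ l, tg e i l ^ 2 = (if l = i then 1 - 2 * e i ^ 2 else 0) + e i ^ 2 * e l ^ 2 :=
    fun l => by unfold tg; split_ifs with h <;> [(rw [h]; ring); ring]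
  have e2 : ∀ l, tg e i l * e l = (if l = i then e i else 0) - e i * e l ^ 2 :=
    fun l => by unfold tg; split_ifs with h <;> [(rw [h]; ring); ring]
  simp only [e1, e2, Finset.sum_add_distrib, Finset.sum_sub_distrib, ← Finset.mul_sum,
    Finset.sum_ite_eq', Finset.mem_univ, if_true]
  rcases he with h | h
  · rw [h]
    exact ⟨by nlinarith [sq_nonneg (e i)], by ring⟩
  · simp [h]

theorem tang (n k : ℕ) : ∃ C ≥ (1 : ℝ), ∀ v : (Fin n → ℝ) → ℝ, Sol v → ∀ x i,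
    Bd k (dd (tg (H283.nu v x) i) v) x (C * √(defi v x)) := by
  obtain ⟨C, c1, h⟩ := H283.exists_tang_bound n k
  refine ⟨C, c1, fun v hv x i l hl => ?_⟩
  obtain ⟨t1, t2⟩ := tg_le (H283.nu_unit_or_zero v x) i
  simpa using h v hv x _ t1 t2 l hl x

theorem defi_of (n k : ℕ) (C : ℝ) : ∃ K ≥ (0 : ℝ), ∀ v : (Fin n → ℝ) → ℝ, Sol v →
    (∀ x e, ∑ i, e i ^ 2 ≤ 1 → Bd k (H283.Vd e v) x (C * H283.Vd e v x)) →
    ∀ x, Bd k (defi v) x (K * defi v x) := by
  obtain ⟨C1, c1, h⟩ := tang n k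
  refine ⟨2 ^ k * (C ^ 2 + n * C1 ^ 2), by positivity, fun v hv H x => ?_⟩
  have e1 := H283.nu_sq_le v x
  have sV := fun e => sm_nice (H283.nice_Vd hv e)
  have sT := fun e => sm_nice (H283.nice_dd (H283.nice_u hv) e)
  have := Bd.lin ((sV _).mul (sV _)) (ContDiff.sum fun i _ => (sT _).mul (sT _))
    (Bd.mul (sV _) (sV _) (H x _ e1) (H x _ (H283.neg_unit e1)))
    (bd_sum Finset.univ (fun i => (sT _).mul (sT _)) fun i =>
      Bd.mul (sT _) (sT _) (h v hv x i) (h v hv x i)) 4 (-1)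
  convert this using 1
  · funext y
    rw [H283.defi_decomp v (H283.nu_unit_or_zero v x) y]
    simp only [sq, neg_mul, one_mul, sub_eq_add_neg]
    rfl
  · rw [mul_mul_mul_comm C1, Real.mul_self_sqrt (hv.defi_nonneg x)]
    simp only [Finset.card_univ, Fintype.card_fin, abs_neg, abs_one, Nat.abs_ofNat]
    linear_combination 2 ^ k * C ^ 2 * H283.defi_eq_Vd v x

theorem vd (n k : ℕ) : ∃ C ≥ (1 : ℝ), ∀ v : (Fin n → ℝ) → ℝ, Sol v →
    ∀ x e, ∑ i, e i ^ 2 ≤ 1 → Bd k (H283.Vd e v) x (C * H283.Vd e v x) := by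
  induction k with
  | zero => exact ⟨1, le_rfl, fun v hv x e he => bd_zero (by
      rw [one_mul, abs_of_nonneg (H283.Vd_nonneg hv he x)])⟩
  | succ k ih =>
    obtain ⟨C, c1, H⟩ := ih
    obtain ⟨K, K0, hK⟩ := defi_of n k C
    obtain ⟨A, A0, hA⟩ := H283.exists_pot_bound n k
    have g0 := H283.cG_pos n (H283.kH n)
    obtain ⟨M, hM⟩ : ∃ M, M = C + 2 ^ k * (A * C) + 2 * K := ⟨_, rfl⟩
    have p : 0 ≤ 2 ^ k * (A * C) := by positivity
    have M0 : 0 ≤ M := by linarith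
    refine ⟨C + H283.cG n (H283.kH n) * M, by nlinarith, fun v hv x e he l hl => ?_⟩
    have V0 := H283.Vd_nonneg hv he
    have nV := H283.nice_Vd hv e
    rcases l with _ | ⟨i, l⟩
    · exact (H v hv x e he).zero.trans (by nlinarith [mul_nonneg (mul_nonneg g0.le M0) (V0 x)])
    have hl' : l.length ≤ k := by simpa using hl
    have ex : ∀ y, M * H283.Vd e v y ≤ M * H283.Vd e v x * Real.exp (H283.kH n * ‖y - x‖) :=
      fun y => by
        rw [mul_assoc, mul_comm (H283.Vd e v x)]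
        exact mul_le_mul_of_nonneg_left (H283.harnack_Vd hv he x y) M0
    refine (H283.abs_pd_le_of_exp (nV.ipd l) (H283.kH_nonneg n) x (fun y => le_trans
      ((H v hv y e he l hl').trans (mul_le_mul_of_nonneg_right (by linarith) (V0 y))) (ex y))
      (fun y => le_trans ?_ (ex y)) i).trans (by nlinarith [V0 x])
    obtain ⟨na, ha⟩ := hA v hv
    rw [H283.lap_ipd nV, show H283.lap (H283.Vd e v) = fun y =>
      1 * ((3 * (v y * v y) - 1) * H283.Vd e v y) + (√2)⁻¹ * defi v y from funext fun y => by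
        rw [H283.lap_Vd hv]; ring]
    refine (Bd.lin ((sm_nice na).mul (sm_nice nV)) (sm_nice (H283.nice_defi hv))
      (Bd.mul (sm_nice na) (sm_nice nV) (fun l hl => ha l hl y) (H v hv y e he))
      (hK v hv (H v hv) y) 1 (√2)⁻¹ l hl').trans ?_
    have := mul_le_mul_of_nonneg_left (H283.defi_div_le hv he y) K0
    rw [abs_one, abs_of_nonneg (by positivity), hM, div_eq_mul_inv] at *
    nlinarith [V0 y]

/-! ## The norms -/

theorem vec {F : Type} [NormedAddCommGroup F] [NormedSpace ℝ F] {c : Fin n → E n → ℝ}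
    {w : Fin n → F} (hc : ∀ i, ContDiff ℝ ∞ (c i)) (hw : ∀ i, ‖w i‖ ≤ 1) {x : E n}
    (h : ∀ i, ‖iteratedFDeriv ℝ k (c i) x‖ ≤ B) :
    ‖iteratedFDeriv ℝ k (fun y => ∑ i, c i y • w i) x‖ ≤ n * B := by
  have s : ∀ i, ContDiffAt ℝ k (c i) x := fun i => (hc i).contDiffAt.of_le (by exact_mod_cast le_top)
  rw [iteratedFDeriv_fun_sum_apply (f := fun i y => c i y • w i) fun i _ =>
    (s i).smul contDiffAt_const]
  refine (norm_sum_le _ _).trans ((Finset.sum_le_card_nsmul _ _ B fun i _ => ?_).trans (by simp))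
  refine (((ContinuousLinearMap.id ℝ ℝ).smulRight (w i)).norm_iteratedFDeriv_comp_left (s i)
    le_rfl).trans ((mul_le_of_le_one_left (norm_nonneg _) ?_).trans (h i))
  simpa using hw i

theorem sm_up (h : ContDiff ℝ ∞ φ) : ContDiff ℝ ∞ (up φ) :=
  h.comp (PiLp.continuousLinearEquiv 2 ℝ fun _ : Fin n => ℝ).contDiff

theorem nrm (s : ContDiff ℝ ∞ φ) {x : E n} (h : ∀ l, l.length = k → |ipd l φ x.ofLp| ≤ B) :
    ‖iteratedFDeriv ℝ k (up φ) x‖ ≤ n ^ k * B := by
  induction k generalizing φ with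
  | zero => simpa [up, ipd_nil] using h [] rfl
  | succ k ih =>
    rw [← norm_iteratedFDeriv_fderiv, show fderiv ℝ (up φ) = fun y => ∑ i,
      up (pd i φ) y • (EuclideanSpace.proj i : E n →L[ℝ] ℝ) from funext fun y => by
        ext w
        rw [map_eq_sum _ w]
        simp [← D_up, D, mul_comm], pow_succ', mul_assoc]
    refine vec (fun i => sm_up (sm_pd s i)) (fun i => ContinuousLinearMap.opNorm_le_bound _
      zero_le_one fun w => by simpa using PiLp.norm_apply_le w i) fun i =>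
      ih (sm_pd s i) fun l hl => ?_
    rw [← H283.ipd_append]
    exact h _ (by simpa using hl)

/-! ## Solutions -/

variable {u : E n → ℝ} {C : ℝ}

/-- from the Euclidean space to coordinates -/
def dn (u : E n → ℝ) (y : Fin n → ℝ) : ℝ := u (WithLp.toLp 2 y)

theorem sm_dn (h : ContDiff ℝ ∞ u) : ContDiff ℝ ∞ (dn u) :=
  h.comp (PiLp.continuousLinearEquiv 2 ℝ fun _ : Fin n => ℝ).symm.contDiff

theorem id1 (h : Ok C u) : Id1 (up (dn u)) :=
  ⟨h.smp, h.th, h.flo, h.fhi, h.gu, h.gf, h.tr, h.sy, h.gq, h.gp⟩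

theorem sol (h : Ok C u) : Sol (dn u) := by
  refine ⟨(sm_dn h.sm).of_le (by norm_cast), fun x => (h.lt _).le, fun x => Eq.trans ?_ (h.eq _)⟩
  refine Finset.sum_congr rfl fun i _ => ?_
  have e := ((EuclideanSpace.proj i : E n →L[ℝ] ℝ).hasFDerivAt.comp (WithLp.toLp 2 x)
    ((smooth_gradient h.sm).differentiable (by simp) _).hasFDerivAt).fderiv
  rw [show (EuclideanSpace.proj i : E n →L[ℝ] ℝ) ∘ gradient u = up (pd i (dn u)) from
    funext fun y => grad_up (dn u) y i] at e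
  refine (congrFun (D_up i (pd i (dn u))) (WithLp.toLp 2 x)).symm.trans ?_
  rw [D, e]
  rfl

theorem vd_eq (h : Ok C u) (b : E n) :
    H283.Vd (-b.ofLp) (dn u) = fun y => dn (ff u) y / 2 * dn (fun x => 1 - pe u b x) y := by
  funext y
  rw [H283.Vd, H283.dd_neg_left, show dd b.ofLp (dn u) y = _ from
    dd_eq (id1 h) b (WithLp.toLp 2 y), show psi (dn u) y / √2 = dn (ff u) y from rfl]
  simp only [dn, show up (dn u) = u from rfl]
  ring

theorem f0 (h : Ok C u) (x : E n) : 0 < ff u x := lt_of_lt_of_le (by positivity) (h.flo x)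

theorem sf (h : Ok C u) : ContDiff ℝ ∞ (ff u) := (contDiff_const.sub (h.sm.pow 2)).div_const _

theorem sq' (h : Ok C u) : ContDiff ℝ ∞ (qq u) :=
  contDiff_const.sub ((smooth_gradient h.smp).norm_sq ℝ)

theorem sp (h : Ok C u) (b : E n) : ContDiff ℝ ∞ (pe u b) :=
  (smooth_gradient h.smp).inner ℝ contDiff_const

theorem sz (h : Ok C u) (b : E n) : ContDiff ℝ ∞ (dn fun y => 1 - pe u b y) :=
  sm_dn (contDiff_const.sub (sp h b))

theorem eE (h : Ok C u) : defi (dn u) = dn (EE u) := by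
  funext y
  have := defi_eq (id1 h) (WithLp.toLp 2 y)
  rw [show up (dn u) = u from rfl] at this
  rw [dn, EE, ← this]

theorem cZ (n k : ℕ) : ∃ K ≥ (1 : ℝ), ∀ (C : ℝ) (u : E n → ℝ), Ok C u → ∀ x : E n,
    Bd k (dn (ff u)) x.ofLp (K * ff u x) ∧ ∀ e : E n, ‖e‖ ≤ 1 → 0 ≤ 1 - pe u e x ∧
      Bd k (dn fun y => 1 - pe u e y) x.ofLp (K * (1 - pe u e x)) := by
  obtain ⟨c, c1, hV⟩ := vd n k
  obtain ⟨K, K1, hK⟩ := quo k (zero_le_one.trans c1)
  refine ⟨K * c, one_le_mul_of_one_le_of_one_le K1 c1, fun C u h x => ?_⟩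
  have s := (sm_dn (sf h)).div_const 2
  have V : ∀ b : E n, ‖b‖ ≤ 1 → 0 ≤ 1 - pe u b x ∧ Bd k
      (fun y => dn (ff u) y / 2 * dn (fun x => 1 - pe u b x) y) x.ofLp
      (c * (1 - pe u b x) * (dn (ff u) x.ofLp / 2)) := fun b hb => by
    have hb' : ∑ i, (-b.ofLp) i ^ 2 ≤ 1 := H283.neg_unit (by
      rw [← EuclideanSpace.real_norm_sq_eq]; exact pow_le_one₀ (norm_nonneg _) hb)
    have h0 := H283.Vd_nonneg (sol h) hb' x.ofLp
    have h1 := hV _ (sol h) x.ofLp _ hb'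
    rw [vd_eq h] at h0 h1
    exact ⟨nonneg_of_mul_nonneg_right h0 (half_pos (f0 h x)),
      h1.mono (by simp only [dn]; linarith)⟩
  have F2 : Bd k (fun y => dn (ff u) y / 2) x.ofLp (c * (dn (ff u) x.ofLp / 2)) := by
    simpa [pe, dn] using (V 0 (by simp)).2
  refine ⟨?_, fun e he => ⟨(V e he).1, (hK s (sz h e) (half_pos (f0 h x)) F2 (V e he).2).mono
    (mul_assoc _ _ _).ge⟩⟩
  have := Bd.lin s s F2 F2 1 1
  simp only [one_mul, add_halves, abs_one, ← mul_add] at this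
  exact this.mono (mul_le_mul_of_nonneg_right (le_mul_of_one_le_left (by linarith) K1)
    (f0 h x).le)

theorem cQ (n k : ℕ) : ∃ K ≥ (1 : ℝ), ∀ (C : ℝ) (u : E n → ℝ), Ok C u → ∀ x : E n,
    Bd k (dn (EE u)) x.ofLp (K * EE u x) ∧ Bd k (dn (qq u)) x.ofLp (K * qq u x) := by
  obtain ⟨c, c1, hV⟩ := vd n k
  obtain ⟨c', c0, hE⟩ := defi_of n k c
  obtain ⟨a, a1, hF⟩ := cZ n k
  obtain ⟨K, K1, hK⟩ := quo k (c := 2 ^ k * a ^ 2) (by positivity)
  have p : c' ≤ K * c' := le_mul_of_one_le_left c0 K1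
  refine ⟨K * c' + 1, by linarith, fun C u h x => ?_⟩
  have h1 := hE _ (sol h) (hV _ (sol h)) x.ofLp
  rw [eE h] at h1
  have s := sm_dn (sf h)
  have F := (hF C u h x).1
  refine ⟨h1.mono (mul_le_mul_of_nonneg_right (by linarith) (mul_nonneg (sq_nonneg _) (h.q0 x))),
    (hK (A := c' * qq u x) (s.mul s) (sm_dn (sq' h)) (mul_pos (f0 h x) (f0 h x))
      ((Bd.mul s s F F).mono (by simp only [dn]; linarith)) ?_).mono (by linarith [h.q0 x])⟩
  convert h1 using 1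
  · funext y
    simp only [dn, EE, sq]
  · simp only [dn, EE]
    ring

theorem cP (n k : ℕ) : ∃ K ≥ (1 : ℝ), ∀ (C : ℝ) (u : E n → ℝ), Ok C u → ∀ (x : E n) i j,
    Bd k (pd j (dn (pe u (EuclideanSpace.single i 1)))) x.ofLp (K * √(qq u x)) := by
  obtain ⟨a, a1, hF⟩ := cZ n (k + 1)
  obtain ⟨c, c1, hT⟩ := tang n (k + 1)
  obtain ⟨K, K1, hK⟩ := quo (k + 1) (zero_le_one.trans a1)
  refine ⟨K * c + a, by nlinarith, fun C u h x i j => ?_⟩
  obtain ⟨F, Z⟩ := hF C u h x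
  have f0 := f0 h x
  obtain ⟨ν, hν⟩ : ∃ ν : E n, ν = WithLp.toLp 2 (H283.nu (dn u) x.ofLp) := ⟨_, rfl⟩
  have n1 : ‖ν‖ ≤ 1 := (sq_le_one_iff₀ (norm_nonneg _)).1 (by
    rw [EuclideanSpace.real_norm_sq_eq, hν]; exact H283.nu_sq_le _ _)
  have n2 : |-ν i| ≤ 1 := by
    rw [abs_neg]
    exact (PiLp.norm_apply_le ν i).trans n1
  obtain ⟨t, ht⟩ : ∃ t : E n, t = EuclideanSpace.single i 1 - ν i • ν := ⟨_, rfl⟩
  have T : Bd (k + 1) (dn (pe u t)) x.ofLp (K * (c * √(qq u x))) := by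
    refine hK (sm_dn (sf h)) (sm_dn (sp h t)) f0 F ?_
    convert hT _ (sol h) x.ofLp i using 1
    · funext y
      refine (dd_eq (id1 h) t (WithLp.toLp 2 y)).symm.trans (congrArg (dd · _ _) ?_)
      funext l
      simp [ht, hν, tg]
    · rw [eE h, show dn (EE u) x.ofLp = ff u x ^ 2 * qq u x from rfl, Real.sqrt_mul (sq_nonneg _),
        Real.sqrt_sq f0.le]
      simp only [dn]
      ring
  have w : 1 - pe u ν x ≤ √(qq u x) := by
    have e1 := H283.defi_eq_gw (dn u) x.ofLp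
    have e2 : dd ν.ofLp (dn u) x.ofLp = ff u x * pe u ν x := dd_eq (id1 h) ν x
    have e3 := H283.gw_nonneg (dn u) x.ofLp
    rw [show ν.ofLp = H283.nu (dn u) x.ofLp by rw [hν], H283.dd_nu] at e2
    rw [eE h, show psi (dn u) x.ofLp ^ 2 / 2 = ff u x ^ 2 by
      rw [ff, div_pow, Real.sq_sqrt two_pos.le]; rfl, e2,
      show dn (EE u) x.ofLp = ff u x ^ 2 * qq u x from rfl] at e1
    rw [e2] at e3
    have e4 : qq u x = 1 - pe u ν x ^ 2 := mul_left_cancel₀ (pow_pos f0 2).ne' (by linarith)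
    have e5 : 0 ≤ pe u ν x := nonneg_of_mul_nonneg_right e3 f0
    exact Real.le_sqrt_of_sq_le (by nlinarith only [(Z ν n1).1, e4, e5])
  have e : pd j (dn (pe u (EuclideanSpace.single i 1))) =
      fun y => 1 * pd j (dn (pe u t)) y + -ν i * pd j (dn fun y => 1 - pe u ν y) y := by
    refine Eq.trans ?_ (ipd_lin (sm_dn (sp h t)) (sz h ν) 1 (-ν i) [j])
    funext y
    rw [show dn (pe u (EuclideanSpace.single i 1)) = fun y => (1 * dn (pe u t) y + -ν i *
      dn (fun y => 1 - pe u ν y) y) + ν i from funext fun y => by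
        simp only [dn, pe, ht, inner_sub_right, inner_smul_right]; ring]
    simp only [pd, ipd, fderiv_add_const]
  rw [e]
  refine (Bd.lin (sm_pd (sm_dn (sp h t)) j) (sm_pd (sz h ν) j) (T.pd j) ((Z ν n1).2.pd j) 1
    _).mono ?_
  rw [abs_one]
  linarith [mul_le_mul_of_nonneg_left w (zero_le_one.trans a1),
    mul_le_of_le_one_left (Z ν n1).2.nn n2]

/-- **all derivatives** -/
theorem hi (n k : ℕ) : ∃ K ≥ (1 : ℝ), ∀ (C : ℝ) (u : E n → ℝ), Ok C u → ∀ x : E n,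
    ‖iteratedFDeriv ℝ k (ff u) x‖ ≤ K * ff u x ∧ ‖iteratedFDeriv ℝ k (EE u) x‖ ≤ K * EE u x ∧
    ‖iteratedFDeriv ℝ k (qq u) x‖ ≤ K * qq u x ∧
    (∀ e : E n, ‖e‖ ≤ 1 → ‖iteratedFDeriv ℝ k (fun y => 1 - pe u e y) x‖ ≤ K * (1 - pe u e x)) ∧
    ‖iteratedFDeriv ℝ k (SS u) x‖ ≤ K * √(qq u x) ∧
    ‖iteratedFDeriv ℝ (k + 2) (ps u) x‖ ≤ K * √(qq u x) := by
  obtain ⟨K1, k1, H1⟩ := cZ n k
  obtain ⟨K2, k2, H2⟩ := cQ n k
  obtain ⟨K3, k3, H3⟩ := cP n k
  have N1 : (1 : ℝ) ≤ (n + 1) ^ (k + 2) := one_le_pow₀ (by simp)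
  refine ⟨(n + 1) ^ (k + 2) * (K1 + K2 + K3), one_le_mul_of_one_le_of_one_le N1 (by linarith),
    fun C u h x => ?_⟩
  have g : ∀ {φ : E n → ℝ} {a K : ℝ}, ContDiff ℝ ∞ φ → 0 ≤ a → K ≤ K1 + K2 + K3 →
      Bd k (dn φ) x.ofLp (K * a) →
      ‖iteratedFDeriv ℝ k φ x‖ ≤ (n + 1) ^ (k + 2) * (K1 + K2 + K3) * a := fun s a0 hK b => by
    refine (nrm (sm_dn s) fun l hl => b l hl.le).trans ?_
    rw [mul_assoc]
    exact mul_le_mul ((pow_le_pow_left₀ (by simp) (by simp) k).trans (pow_le_pow_right₀ (by simp)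
      (by simp))) (mul_le_mul_of_nonneg_right hK a0) b.nn (by positivity)
  have P : ∀ i, ‖iteratedFDeriv ℝ (k + 1) (pe u (EuclideanSpace.single i 1)) x‖ ≤
      n ^ (k + 1) * (K3 * √(qq u x)) := fun i => nrm (sm_dn (sp h _)) fun l hl => by
    rcases List.eq_nil_or_concat l with rfl | ⟨l, j, rfl⟩
    · simp at hl
    · rw [List.concat_eq_append, H283.ipd_append]
      exact H3 C u h x i j l (by simp at hl; omega)
  have fin : (n : ℝ) * (n ^ (k + 1) * (K3 * √(qq u x))) ≤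
      (n + 1) ^ (k + 2) * (K1 + K2 + K3) * √(qq u x) := by
    rw [← mul_assoc, ← pow_succ', mul_assoc]
    gcongr
    · simp
    · linarith
  refine ⟨g (sf h) (f0 h x).le (by linarith) (H1 C u h x).1, g (((sf h).pow 2).mul (sq' h))
    (mul_nonneg (sq_nonneg _) (h.q0 x)) (by linarith) (H2 C u h x).1,
    g (sq' h) (h.q0 x) (by linarith) (H2 C u h x).2, fun e he => g (contDiff_const.sub (sp h e))
      ((H1 C u h x).2 e he).1 (by linarith) ((H1 C u h x).2 e he).2, ?_, ?_⟩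
  · rw [show SS u = fderiv ℝ (pp u) from rfl, norm_iteratedFDeriv_fderiv, show pp u = fun y => ∑ i,
      pe u (EuclideanSpace.single i 1) y • (EuclideanSpace.single i 1 : E n) from funext fun y => by
        simp [pe, EuclideanSpace.inner_single_right, sum_single]]
    exact (vec (fun i => sp h _) (fun i => by simp) P).trans fin
  · rw [← norm_iteratedFDeriv_fderiv, show fderiv ℝ (ps u) = fun y => ∑ i,
      pe u (EuclideanSpace.single i 1) y • (EuclideanSpace.proj i : E n →L[ℝ] ℝ) from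
      funext fun y => by
        ext w
        rw [map_eq_sum _ w]
        simp [pe, pp, mul_comm]]
    exact (vec (fun i => sp h _) (fun i => ContinuousLinearMap.opNorm_le_bound _
      zero_le_one fun w => by simpa using PiLp.norm_apply_le w i) P).trans fin

/-- the fourth derivatives of the phase -/
theorem s2 (n : ℕ) : ∃ K ≥ (1 : ℝ), ∀ (C : ℝ) (u : E n → ℝ), Ok C u → ∀ x v : E n,
    ‖fderiv ℝ (fun y => fderiv ℝ (SS u) y v) x‖ ≤ K * √(qq u x) * ‖v‖ := by
  obtain ⟨K, K1, H⟩ := hi n 2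
  refine ⟨K, K1, fun C u h x v => ?_⟩
  have s : ContDiff ℝ ∞ (fderiv ℝ (SS u)) :=
    ((smooth_gradient h.smp).fderiv_right (m := ∞) le_rfl).fderiv_right (m := ∞) le_rfl
  rw [← norm_iteratedFDeriv_one, mul_comm]
  refine (norm_iteratedFDeriv_clm_apply_const s.contDiffAt (by exact_mod_cast le_top)).trans ?_
  rw [norm_iteratedFDeriv_fderiv]
  exact mul_le_mul_of_nonneg_left (H C u h x).2.2.2.2.1 (norm_nonneg _)

end Vale.Agent.P134H
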