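import Vale.Agent.P134H.Step
import Vale.Agent.P134C.Top

/-!
# P134H: elementary facts about the two-point functions
-/

open Metric Filter Topology Set
open scoped ContDiff RealInnerProductSpace
open Vale.Agent.P366.Stmt (E)

noncomputable section

namespace Vale.Agent.P134H

open Vale.Agent.P134B Vale.Agent.P134C

variable {n : ℕ} {C δ : ℝ} {u : E n → ℝ}

theorem zq_eq (u : E n → ℝ) (x w : E n) : Zq u x w = 2 * -ht u x (x + w) / ‖w‖ ^ 2 := by
  rw [Zq, ht, add_sub_cancel_left]; ring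

theorem zq_bdd (h : Ok C u) (x : E n) : BddAbove (range (Zq u x)) := by
  refine ⟨C, forall_mem_range.2 fun w => ?_⟩
  obtain ⟨t, -, k⟩ := taylor h x w
  have a := (neg_le_abs _).trans (abs_real_inner_le_norm (SS u (x + t • w) w) w)
  have b := (SS u (x + t • w)).le_of_opNorm_le (h.tS_le _) w
  rw [zq_eq]
  refine div_le_of_le_mul₀ (sq_nonneg _) (by linarith [h.C1]) ?_
  nlinarith [norm_nonneg w]

theorem mu_nn (h : Ok C u) (x : E n) : 0 ≤ mu u x :=
  le_ciSup_of_le (zq_bdd h x) 0 (by simp [Zq])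

theorem le_mu (h : Ok C u) {x w : E n} {φ : ℝ} (w0 : w ≠ 0)
    (hw : φ * ‖w‖ ^ 2 / 2 ≤ -ht u x (x + w)) : φ ≤ mu u x :=
  le_ciSup_of_le (zq_bdd h x) w (by
    rw [zq_eq, le_div_iff₀ (pow_pos (norm_pos_iff.2 w0) 2)]; linarith)

theorem lt_mu {x : E n} {φ : ℝ} (φ0 : 0 ≤ φ) (k : φ < mu u x) :
    ∃ w, w ≠ 0 ∧ φ * ‖w‖ ^ 2 / 2 ≤ -ht u x (x + w) := by
  obtain ⟨w, hw⟩ := exists_lt_of_lt_ciSup k
  have w0 : w ≠ 0 := by
    rintro rfl
    simp [Zq] at hw
    linarith
  rw [zq_eq, lt_div_iff₀ (pow_pos (norm_pos_iff.2 w0) 2)] at hw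
  exact ⟨w, w0, by linarith⟩

theorem th_ge (u : E n → ℝ) (x : E n) : 1 / 2 ≤ th u x := by
  unfold th; linarith [P134T.qq_le u x]

theorem th_le (h : Ok C u) (x : E n) : th u x ≤ 1 := by
  unfold th; linarith [h.q0 x]

theorem mx_pos (h : Ok C u) (x : E n) : 0 < max (th u x + ps u x * mu u x) (mu u x) := by
  rcases (mu_nn h x).eq_or_lt with k | k
  · rw [← k, mul_zero, add_zero]
    exact lt_max_of_lt_left (by linarith [th_ge u x])
  · exact lt_max_of_lt_right k

theorem ph_nn (h : Ok C u) (x : E n) : 0 ≤ ph u x := div_nonneg (mu_nn h x) (mx_pos h x).le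

theorem ph_le (h : Ok C u) (x : E n) : ph u x ≤ 1 :=
  (div_le_one (mx_pos h x)).2 (le_max_right _ _)

theorem le_ph (h : Ok C u) {x : E n} {φ W : ℝ} (φ0 : 0 < φ) (k : φ ≤ mu u x) (W1 : 1 ≤ W)
    (hW : 1 / φ + ps u x ≤ W) : 1 / W ≤ ph u x := by
  rw [ph, div_le_div_iff₀ (by linarith) (mx_pos h x), one_mul]
  have a : 1 / φ * φ = 1 := one_div_mul_cancel φ0.ne'
  have b : 0 < 1 / φ := by positivity
  refine max_le ?_ (by nlinarith)
  have c : 1 / φ * φ ≤ (W - ps u x) * mu u x := mul_le_mul (by linarith) k φ0.le (by linarith)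
  linarith [th_le h x]

theorem ph_eq (h : Ok C u) {x : E n} (p0 : 0 < ph u x) (p1 : ph u x < 1) :
    0 < mu u x ∧ ph u x * (th u x / mu u x + ps u x) = 1 := by
  have m := mx_pos h x
  have m0 : 0 < mu u x := by
    refine (mu_nn h x).lt_of_ne fun k => ?_
    rw [ph, ← k, zero_div] at p0
    exact p0.false
  refine ⟨m0, ?_⟩
  rw [ph, div_lt_one m] at p1
  have e := max_eq_left_of_lt (a := th u x + ps u x * mu u x) (b := mu u x)
    (by simpa using p1)
  rw [e] at m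
  rw [ph, e, div_mul_eq_mul_div, div_eq_one_iff_eq m.ne']
  field_simp

theorem GG_ge (u : E n → ℝ) (x : E n) (h : Ok C u) : ph (-u) x ≤ GG u x :=
  le_max_of_le_left (by linarith [ph_nn h x])

theorem GG_le {x : E n} (h : Ok C u) (k : ph u x ≤ ph (-u) x) : GG u x ≤ 2 * ph (-u) x := by
  refine max_le (by linarith) ?_
  rw [max_eq_right k]
  linarith [ph_nn h x]

theorem GG_neg (u : E n → ℝ) : GG (-u) = GG u := funext fun x => by
  simp only [GG, neg_neg, add_comm, max_comm]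

theorem df_neg (u : E n → ℝ) : df (-u) = df u := funext fun x => by
  simp only [df, neg_neg, Sy.ps_neg, Pi.neg_apply]
  congr 1; ring

theorem hs_neg (A : E n →L[ℝ] E n) : hs (-A) = hs A := by simp [hs]

theorem th_neg (u : E n → ℝ) : th (-u) = th u := funext fun x => by simp only [th, Sy.qq_neg]

theorem hh_neg (u : E n → ℝ) : hh (-u) = hh u := funext fun x => by
  simp only [hh, ft, th_neg, Sy.ff_neg]

theorem Pt_neg (u : E n → ℝ) : Pt (-u) = Pt u := funext fun x => by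
  simp only [Pt, th_neg, Sy.qq_neg, Sy.PP_neg, Sy.SS_neg, Pi.neg_apply, hs_neg]

theorem Xd_neg (u : E n → ℝ) : Xd (-u) = Xd u := funext fun x => by
  simp only [Xd, df_neg, Pt_neg]

theorem Gn_neg (u : E n → ℝ) : Gn (-u) = Gn u := funext fun x => by
  simp only [Gn, Sy.ff_neg, Sy.EE_neg, Sy.PP_neg, Sy.SS_neg, Sy.ps_neg, Pi.neg_apply, hs_neg,
    neg_sq]

theorem dd_neg (δ : ℝ) (u : E n → ℝ) : dd δ (-u) = dd δ u := funext fun x => by
  simp only [dd, Bad, Sy.EE_neg]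

theorem rt_neg (h : Rt C δ u) : Rt C δ (-u) :=
  ⟨Sy.ok h.ok, (sym.1 n u).2.2.1 h.st, h.d0, by simpa only [Bad, Sy.EE_neg] using h.ne,
    by simpa only [dd_neg, Sy.EE_neg] using h.rt⟩

theorem PP_nn (h : Ok C u) (x : E n) : 0 ≤ PP u x :=
  mul_nonneg (mul_nonneg (Real.sqrt_nonneg _) (h.tff_pos x).le) (h.q0 x)

theorem Gn_ge (h : Ok C u) (x : E n) : EE u x / (1 + ps u x ^ 2) ≤ Gn u x := by
  have := mul_nonneg (sq_nonneg (ff u x)) (hs_nn (SS u x))
  have := mul_nonneg (sq_nonneg (ff u x)) (PP_nn h x)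
  unfold Gn
  linarith

/-- the density of the loss -/
def ls (u : E n → ℝ) (x : E n) : ℝ := n * (ff u x ^ 2 * ‖SS u x‖ ^ 2) + EE u x * qq u x

theorem ls_nn (h : Ok C u) (x : E n) : 0 ≤ ls u x :=
  add_nonneg (by positivity) (mul_nonneg (h.tEE_nn x) (h.q0 x))

theorem ls_le (h : Ok C u) (x : E n) : ls u x ≤ (n * C ^ 2 + 1) * ff u x ^ 2 := by
  have a : ‖SS u x‖ ^ 2 ≤ C ^ 2 := pow_le_pow_left₀ (norm_nonneg _) (h.tS_le x) 2
  have b : qq u x * qq u x ≤ 1 := mul_le_one₀ (P134T.qq_le u x) (h.q0 x) (P134T.qq_le u x)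
  have c := mul_le_mul_of_nonneg_left a (show 0 ≤ n * ff u x ^ 2 by positivity)
  have d := mul_le_mul_of_nonneg_left b (sq_nonneg (ff u x))
  unfold ls EE
  linarith

theorem loss_le (h : Ok C u) {x : E n} (t0 : 0 ≤ ps u x) :
    hh u x * Xd u x ≤ 2 * ps u x * ls u x := by
  have l0 := ls_nn h x
  unfold Xd
  split_ifs
  swap
  · rw [mul_zero]; positivity
  have a : df u x ≤ ps u x := max_le t0 (mul_le_of_le_one_right t0 (by
    linarith [ph_nn h x, ph_le (Sy.ok h) x]))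
  have a0 : 0 ≤ df u x := le_max_left _ _
  have θ0 : 0 < th u x := by linarith [th_ge u x]
  have p : PP u x ≤ qq u x := by
    have e : PP u x = (1 - u x ^ 2) * qq u x := by unfold PP ff; field_simp
    rw [e]
    nlinarith [h.q0 x, sq_nonneg (u x)]
  have b : hh u x * Pt u x ≤ ls u x := by
    have e : hh u x * Pt u x = th u x * (ff u x ^ 2 * (hs (SS u x) + PP u x * qq u x / 2)) := by
      unfold hh ft Pt; field_simp
    have c := mul_nonneg (PP_nn h x) (h.q0 x)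
    have d := mul_le_mul_of_nonneg_right p (h.q0 x)
    have g : hs (SS u x) + PP u x * qq u x / 2 ≤ n * ‖SS u x‖ ^ 2 + qq u x * qq u x := by
      linarith [hs_le (SS u x)]
    rw [e]
    refine (mul_le_of_le_one_left (mul_nonneg (sq_nonneg _) (by linarith [hs_nn (SS u x)]))
      (th_le h x)).trans ((mul_le_mul_of_nonneg_left g (sq_nonneg _)).trans (le_of_eq ?_))
    unfold ls EE; ring
  calc _ = 100 / 99 * df u x * (hh u x * Pt u x) := by ring
    _ ≤ 100 / 99 * df u x * ls u x := by gcongr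
    _ ≤ _ := by nlinarith

end Vale.Agent.P134H
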